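import Vale.Agent.P108.Bdl.B1
import Mathlib.Analysis.SpecialFunctions.Integrals.LogTrigonometric

/-!
# P108: the mean of `log (|a| ± C)` is `log (π k) + o(1)`
-/

open MeasureTheory Filter Set Topology

namespace Vale.Agent.N108

open Vale.Agent.P108 Vale.Agent.P108.FT

lemma integral_log_cos_two_pi :
    ∫ x in (0 : ℝ)..1, Real.log (Real.cos (2 * Real.pi * x)) = -Real.log 2 := by
  have hπ := Real.pi_pos
  have hper : Function.Periodic (fun x => Real.log (Real.cos x)) Real.pi := fun x => by
    simp only [Real.cos_add_pi, Real.log_neg_eq_log]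
  have h1 : ∀ t : ℝ, ∫ x in t..t + Real.pi, Real.log (Real.cos x) = -Real.log 2 * Real.pi := by
    intro t
    rw [hper.intervalIntegral_add_eq t (Real.pi / 2), ← integral_log_sin_zero_pi]
    have h2 := intervalIntegral.integral_comp_add_right (a := 0) (b := Real.pi)
      (fun x => Real.log (Real.cos x)) (Real.pi / 2)
    simp only [Real.cos_add_pi_div_two, Real.log_neg_eq_log, zero_add] at h2
    rw [h2, add_comm]
  have h3 := intervalIntegral.integral_comp_mul_left (a := 0) (b := 1)
    (f := fun θ => Real.log (Real.cos θ)) (c := 2 * Real.pi) (by positivity)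
  simp only [mul_zero, mul_one, smul_eq_mul] at h3
  have h4 := intervalIntegral.integral_add_adjacent_intervals
    (f := fun x => Real.log (Real.cos x)) (μ := volume) (a := 0) (b := Real.pi)
    (c := 2 * Real.pi) intervalIntegrable_log_cos intervalIntegrable_log_cos
  have h5 := h1 0
  have h6 := h1 Real.pi
  rw [zero_add] at h5
  rw [← two_mul] at h6
  rw [h3, ← h4, h5, h6]
  field_simp
  ring

lemma integrable_log_cos :
    Integrable (fun x => Real.log (Real.cos (2 * Real.pi * x))) (volume.restrict (Ico (0 : ℝ) 1)) := by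
  have h : MeromorphicOn (fun x : ℝ => Real.cos (2 * Real.pi * x)) (uIcc 0 1) := by
    intro x _
    apply AnalyticAt.meromorphicAt
    fun_prop
  have h2 := h.intervalIntegrable_log_norm
  rw [intervalIntegrable_iff_integrableOn_Ico_of_le zero_le_one] at h2
  simp only [Real.log_abs, Real.norm_eq_abs] at h2
  exact h2

lemma ae_cos_ne : ∀ᵐ x : ℝ, Real.cos (2 * Real.pi * x) ≠ 0 := by
  have hπ := Real.pi_pos
  have hc : ({x : ℝ | Real.cos (2 * Real.pi * x) = 0}).Countable := by
    refine (countable_range fun n : ℤ => ((2 * n + 1) / 4 : ℝ)).mono ?_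
    intro x hx
    obtain ⟨n, hn⟩ := Real.cos_eq_zero_iff.1 hx
    refine ⟨n, ?_⟩
    have : 2 * Real.pi * x = 2 * Real.pi * ((2 * n + 1) / 4) := by rw [hn]; ring
    exact (mul_left_cancel₀ (by positivity) this).symm
  exact measure_eq_zero_iff_ae_notMem.1 (hc.measure_zero _)

/-- dominated convergence for the logarithm of a perturbation of `|cos|` -/
lemma tendsto_int {F : ℝ → ℝ → ℝ} (hm : ∀ c, Measurable (F c))
    (hb : ∀ᶠ c in atTop, ∀ x, |Real.cos (2 * Real.pi * x)| / 12 ≤ F c x ∧ F c x ≤ 12)
    (ht : ∀ x, Tendsto (fun c => F c x) atTop (𝓝 |Real.cos (2 * Real.pi * x)|)) :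
    Tendsto (fun c => ∫ x in Ico (0 : ℝ) 1, Real.log (F c x)) atTop (𝓝 (-Real.log 2)) := by
  have e : -Real.log 2 = ∫ x in Ico (0 : ℝ) 1, Real.log (Real.cos (2 * Real.pi * x)) := by
    rw [← integral_log_cos_two_pi, intervalIntegral.integral_of_le zero_le_one,
      integral_Ico_eq_integral_Ioc]
  rw [e]
  refine tendsto_integral_filter_of_dominated_convergence
    (fun x => |Real.log (Real.cos (2 * Real.pi * x))| + Real.log 12)
    (Eventually.of_forall fun c => (hm c).log.aestronglyMeasurable) ?_
    (integrable_log_cos.abs.add (integrable_const _)) ?_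
  · filter_upwards [hb] with c hc
    filter_upwards [ae_restrict_of_ae ae_cos_ne] with x hx
    have h0 : 0 < |Real.cos (2 * Real.pi * x)| := abs_pos.2 hx
    have h1 := Real.log_le_log (by positivity) (hc x).1
    have h2 := Real.log_le_log (lt_of_lt_of_le (by positivity) (hc x).1) (hc x).2
    rw [Real.log_div h0.ne' (by norm_num), Real.log_abs] at h1
    rw [Real.norm_eq_abs, abs_le]
    constructor
    · linarith [neg_abs_le (Real.log (Real.cos (2 * Real.pi * x)))]
    · linarith [abs_nonneg (Real.log (Real.cos (2 * Real.pi * x)))]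
  · filter_upwards [ae_restrict_of_ae ae_cos_ne] with x hx
    have := (ht x).log (abs_pos.2 hx).ne'
    rwa [Real.log_abs] at this

lemma integral_fst (ψ : ℝ → ℝ) : ∫ z, ψ z.1 ∂mQ = ∫ x in Ico (0 : ℝ) 1, ψ x := by
  rw [mQ_eq, integral_fun_fst ψ, probReal_univ, one_smul]

lemma integrable_bdd {X : Type*} [MeasurableSpace X] {μ : Measure X} [IsFiniteMeasure μ]
    {ψ : X → ℝ} (hm : Measurable ψ) {C : ℝ} (h : ∀ x, |ψ x| ≤ C) : Integrable ψ μ :=
  Integrable.of_bound hm.aestronglyMeasurable C (Eventually.of_forall h)

lemma abs_a_cmp {k : ℝ} (hk : 0 ≤ k) (x : ℝ) :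
    |a k x| ≤ 2 * Real.pi * k * |Real.cos (2 * Real.pi * x)| + 2 ∧
      2 * Real.pi * k * |Real.cos (2 * Real.pi * x)| - 2 ≤ |a k x| := by
  have hπ := Real.pi_pos
  have e : 2 * Real.pi * k * |Real.cos (2 * Real.pi * x)| =
      |2 * Real.pi * k * Real.cos (2 * Real.pi * x)| := by
    rw [abs_mul (2 * Real.pi * k), abs_of_nonneg (by positivity : 0 ≤ 2 * Real.pi * k)]
  rw [e]
  unfold a
  generalize 2 * Real.pi * k * Real.cos (2 * Real.pi * x) = y
  constructor
  · rcases abs_cases (2 + y) with h | h <;> rcases abs_cases y with h' | h' <;> linarith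
  · rcases abs_cases (2 + y) with h | h <;> rcases abs_cases y with h' | h' <;> linarith

lemma tendsto_two_pi : Tendsto (fun k : ℝ => 2 * Real.pi * k) atTop atTop :=
  tendsto_id.const_mul_atTop (by have := Real.pi_pos; positivity)

lemma log_two_pi {k : ℝ} (hk : 0 < k) :
    Real.log (2 * Real.pi * k) = Real.log 2 + Real.log (Real.pi * k) := by
  have := Real.pi_pos
  rw [mul_assoc, Real.log_mul (by norm_num) (by positivity)]

/-- the upper mean -/
theorem up_int {ε : ℝ} (hε : 0 < ε) : ∀ᶠ k : ℝ in atTop,
    ∫ z, Real.log (|a k z.1| + 6) ∂mQ ≤ Real.log (Real.pi * k) + ε := by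
  have h := tendsto_int (F := fun c x => |Real.cos (2 * Real.pi * x)| + 8 / c)
    (fun c => by fun_prop) ?_ ?_
  · have h2 := tendsto_two_pi.eventually (h.eventually
      (gt_mem_nhds (show -Real.log 2 < -Real.log 2 + ε by linarith)))
    filter_upwards [h2, eventually_ge_atTop (1 : ℝ)] with k hk hk1
    have hπ := Real.pi_gt_three
    have hk0 : 0 < k := by linarith
    set c := 2 * Real.pi * k with hc
    have hc1 : 1 ≤ c := by rw [hc]; nlinarith
    have hc0 : 0 < c := by linarith
    have hi : Integrable (fun x => Real.log (|Real.cos (2 * Real.pi * x)| + 8 / c))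
        (volume.restrict (Ico (0 : ℝ) 1)) := by
      have : Continuous fun x => Real.log (|Real.cos (2 * Real.pi * x)| + 8 / c) :=
        Continuous.log (by fun_prop) fun x => by positivity
      exact (this.integrableOn_Icc (a := 0) (b := 1)).mono_set Ico_subset_Icc_self
    have hi2 : Integrable (fun x => Real.log (|a k x| + 6)) (volume.restrict (Ico (0 : ℝ) 1)) := by
      have : Continuous fun x => Real.log (|a k x| + 6) :=
        Continuous.log ((continuous_a k).abs.add continuous_const) fun x => by positivity
      exact (this.integrableOn_Icc (a := 0) (b := 1)).mono_set Ico_subset_Icc_self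
    rw [integral_fst (fun x => Real.log (|a k x| + 6))]
    have h3 : ∫ x in Ico (0 : ℝ) 1, Real.log (|a k x| + 6) ≤
        ∫ x in Ico (0 : ℝ) 1, (Real.log c + Real.log (|Real.cos (2 * Real.pi * x)| + 8 / c)) := by
      refine integral_mono hi2 ((integrable_const _).add hi) fun x => ?_
      simp only
      rw [← Real.log_mul hc0.ne' (by positivity)]
      apply Real.log_le_log (by positivity)
      have h4 := (abs_a_cmp hk0.le x).1
      rw [mul_add, mul_div_cancel₀ _ hc0.ne']
      linarith
    rw [integral_add (integrable_const _) hi, integral_const, probReal_univ, one_smul, hc,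
      log_two_pi hk0] at h3
    linarith
  · filter_upwards [eventually_ge_atTop (1 : ℝ)] with c hc x
    have h1 := Real.abs_cos_le_one (2 * Real.pi * x)
    have h2 : 8 / c ≤ 8 := div_le_self (by norm_num) hc
    have h3 : 0 ≤ 8 / c := by positivity
    have h4 := abs_nonneg (Real.cos (2 * Real.pi * x))
    constructor <;> linarith
  · intro x
    have := (tendsto_const_nhds (x := |Real.cos (2 * Real.pi * x)|)).add
      (tendsto_const_nhds (x := (8 : ℝ)).div_atTop tendsto_id)
    simpa using this

/-- the lower mean -/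
theorem lo_int {ε : ℝ} (hε : 0 < ε) : ∀ᶠ k : ℝ in atTop,
    Real.log (Real.pi * k) - ε ≤ ∫ z, Real.log (max (|a k z.1| - 4) 1) ∂mQ := by
  have h := tendsto_int (F := fun c x => max (|Real.cos (2 * Real.pi * x)| - 6 / c) (1 / c))
    (fun c => by fun_prop) ?_ ?_
  · have h2 := tendsto_two_pi.eventually (h.eventually
      (lt_mem_nhds (show -Real.log 2 - ε < -Real.log 2 by linarith)))
    filter_upwards [h2, eventually_ge_atTop (1 : ℝ)] with k hk hk1
    have hπ := Real.pi_gt_three
    have hk0 : 0 < k := by linarith
    set c := 2 * Real.pi * k with hc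
    have hc1 : 1 ≤ c := by rw [hc]; nlinarith
    have hc0 : 0 < c := by linarith
    have hpos : ∀ x, 0 < max (|Real.cos (2 * Real.pi * x)| - 6 / c) (1 / c) := fun x =>
      lt_max_of_lt_right (by positivity)
    have hi : Integrable (fun x => Real.log (max (|Real.cos (2 * Real.pi * x)| - 6 / c) (1 / c)))
        (volume.restrict (Ico (0 : ℝ) 1)) := by
      have : Continuous fun x => Real.log (max (|Real.cos (2 * Real.pi * x)| - 6 / c) (1 / c)) :=
        Continuous.log (by fun_prop) fun x => (hpos x).ne'
      exact (this.integrableOn_Icc (a := 0) (b := 1)).mono_set Ico_subset_Icc_self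
    have hi2 : Integrable (fun x => Real.log (max (|a k x| - 4) 1))
        (volume.restrict (Ico (0 : ℝ) 1)) := by
      have : Continuous fun x => Real.log (max (|a k x| - 4) 1) :=
        Continuous.log (((continuous_a k).abs.sub continuous_const).max continuous_const)
          fun x => (lt_max_of_lt_right one_pos).ne'
      exact (this.integrableOn_Icc (a := 0) (b := 1)).mono_set Ico_subset_Icc_self
    rw [integral_fst (fun x => Real.log (max (|a k x| - 4) 1))]
    have h3 : ∫ x in Ico (0 : ℝ) 1, (Real.log c +
          Real.log (max (|Real.cos (2 * Real.pi * x)| - 6 / c) (1 / c))) ≤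
        ∫ x in Ico (0 : ℝ) 1, Real.log (max (|a k x| - 4) 1) := by
      refine integral_mono ((integrable_const _).add hi) hi2 fun x => ?_
      simp only
      rw [← Real.log_mul hc0.ne' (hpos x).ne']
      apply Real.log_le_log (mul_pos hc0 (hpos x))
      have h4 := (abs_a_cmp hk0.le x).2
      rw [mul_max_of_nonneg _ _ hc0.le, mul_sub, mul_div_cancel₀ _ hc0.ne',
        mul_div_cancel₀ _ hc0.ne']
      exact max_le_max (by linarith) le_rfl
    rw [integral_add (integrable_const _) hi, integral_const, probReal_univ, one_smul, hc,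
      log_two_pi hk0] at h3
    linarith
  · filter_upwards [eventually_ge_atTop (1 : ℝ)] with c hc x
    have h1 := Real.abs_cos_le_one (2 * Real.pi * x)
    have h2 : 1 / c ≤ 1 := div_le_self (by norm_num) hc
    have h3 : 0 ≤ 1 / c := by positivity
    have h4 := abs_nonneg (Real.cos (2 * Real.pi * x))
    have h5 : 6 / c = 6 * (1 / c) := by ring
    rw [h5]
    constructor
    · rcases le_total (|Real.cos (2 * Real.pi * x)|) (12 * (1 / c)) with h | h
      · exact le_max_of_le_right (by linarith)
      · exact le_max_of_le_left (by linarith)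
    · exact max_le (by linarith) (by linarith)
  · intro x
    have h1 := (tendsto_const_nhds (x := |Real.cos (2 * Real.pi * x)|)).sub
      (tendsto_const_nhds (x := (6 : ℝ)).div_atTop (tendsto_id (x := atTop)))
    have h2 := tendsto_const_nhds (x := (1 : ℝ)).div_atTop (tendsto_id (x := (atTop : Filter ℝ)))
    have h3 := h1.max h2
    simpa using h3

end Vale.Agent.N108
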