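import Vale.Agent.P108.H954.Sep2

/-!
# P108: counting with a small entropy of the bad set, and the masses of the good sets
-/

open MeasureTheory Filter Set Topology
open scoped ENNReal

namespace Vale.Agent.N108

open Vale.Agent.P108 Vale.Agent.P108.FT Vale.Agent.P108.Dyn Vale.Agent.P108.H504 P108C
open Vale.Agent.P108.H954
open Vale.Agent.P108.H786 (ao)
open Vale.Agent.P108.Sk (Setting GoodWin LongCl Bset cc Nset NearBound EBound NcBound EquiB Decor)

lemma card_small {l : ℝ} (hl0 : 0 < l) (hl1 : l ≤ 1) (n s : ℕ) :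
    (((Finset.range n).powerset.filter fun S => S.card ≤ s).card : ℝ) ≤ (1 + l) ^ n / l ^ s := by
  rw [le_div_iff₀ (by positivity), ← nsmul_eq_mul, ← Finset.sum_const]
  have e : (1 + l) ^ n = ∑ S ∈ (Finset.range n).powerset, l ^ S.card := by
    have := Finset.prod_one_add (f := fun _ : ℕ => l) (Finset.range n)
    simpa using this
  rw [e]
  refine le_trans (Finset.sum_le_sum fun S hS => pow_le_pow_of_le_one hl0.le hl1
    (Finset.mem_filter.1 hS).2) ?_
  exact Finset.sum_le_sum_of_subset_of_nonneg (Finset.filter_subset _ _) fun _ _ _ => by positivity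

theorem cyl_le' {l : ℝ} (hl0 : 0 < l) (hl1 : l ≤ 1) {k : ℝ} {N : ℕ} [NeZero N] {b : ℕ} (hb : 1 ≤ b) {n : ℕ} {X : ℝ × ℝ → Set ℤ}
    (hXm : ∀ i, MeasurableSet {z | i ∈ X z}) {G : Set (ℝ × ℝ)} (hG : MeasurableSet G)
    (hGQ : G ⊆ Q) {s : ℕ} (hs : ∀ z ∈ G, ms (X z) 0 n ≤ s) {ε : ℝ} (hε : 0 ≤ ε)
    (Hexp : ∀ z ∈ G, ∀ w ∈ G, z.1 = w.1 →
      P109.KS.name (T k) (cod N) n z = P109.KS.name (T k) (cod N) n w →
      (∀ i : ℤ, 0 ≤ i → i < n → (i ∈ X z ↔ i ∈ X w)) →
      (∀ p q : ℕ, p < q → q ≤ n → (∀ i : ℕ, p ≤ i → i < q → (i : ℤ) ∈ X z) →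
        ((p : ℤ) - 1 ∉ X z ∨ p = 0) →
        |dy k z w p| < ((b : ℝ) ^ (q - p))⁻¹ ∧ |dy k z w (p + 1)| < ((b : ℝ) ^ (q - p))⁻¹) →
      |dy k z w 1| ≤ ε) (a : Fin n → Fin N) :
    mQ.real (P109.KS.name (T k) (cod N) n ⁻¹' {a} ∩ G) ≤
      (1 + l) ^ n / l ^ s * ((b : ℝ) ^ 2) ^ s * (6 * ε) := by
  classical
  set C := P109.KS.name (T k) (cod N) n ⁻¹' {a} with hC
  have hCm : MeasurableSet C := measurable_name (mp_T k).measurable (measurable_cod N) n a
  have hb0 : 0 < b := hb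
  -- one trace
  have hU : ∀ S : Finset ℕ, S.card ≤ s →
      mQ.real {z | z ∈ C ∩ G ∧ tr n (X z) = S} ≤ ((b : ℝ) ^ 2) ^ s * (6 * ε) := by
    intro S hS
    set S' : Set ℤ := {x | ∃ i ∈ S, x = ((i : ℕ) : ℤ)} with hS'
    let V : (S → Fin b × Fin b) → Set (ℝ × ℝ) := fun c =>
      {z | z ∈ C ∩ G ∧ (∀ i : ℕ, i < n → ((i : ℤ) ∈ X z ↔ i ∈ S)) ∧ S ⊆ Finset.range n ∧
        ∀ j : S, dig k b S' z j = ((c j).1.1, (c j).2.1)}
    have hVm : ∀ c, MeasurableSet (V c) := by
      intro c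
      have h1 : MeasurableSet {z | ∀ i : ℕ, i < n → ((i : ℤ) ∈ X z ↔ i ∈ S)} := by
        rw [show {z | ∀ i : ℕ, i < n → ((i : ℤ) ∈ X z ↔ i ∈ S)} =
          ⋂ (i : ℕ) (_ : i < n), {z | ((i : ℤ) ∈ X z ↔ i ∈ S)} by ext z; simp]
        refine MeasurableSet.iInter fun i => MeasurableSet.iInter fun _ => ?_
        by_cases hi : i ∈ S
        · simpa [hi] using hXm i
        · have e : {z | ((i : ℤ) ∈ X z ↔ i ∈ S)} = {z | (i : ℤ) ∈ X z}ᶜ := by
            ext z
            simp [hi]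
          rw [e]
          exact (hXm i).compl
      have h2 : MeasurableSet {z | ∀ j : S, dig k b S' z j = ((c j).1.1, (c j).2.1)} := by
        rw [show {z | ∀ j : S, dig k b S' z j = ((c j).1.1, (c j).2.1)} =
          ⋂ (j : S), {z | dig k b S' z j = ((c j).1.1, (c j).2.1)} by ext z; simp]
        refine MeasurableSet.iInter fun j => ?_
        have hm : Measurable (fun z => dig k b S' z j) := by
          unfold dig
          have g1 : Measurable (fun z => Int.fract (orb k z (st S' j))) :=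
            (measurable_orb k _).fract
          have g2 : Measurable (fun z => Int.fract (orb k z (st S' j + 1))) :=
            (measurable_orb k _).fract
          have g3 : Measurable (fun z => ⌊(b : ℝ) ^ (j - st S' j + 1 : ℕ) *
              Int.fract (orb k z (st S' j))⌋₊ % b) :=
            (measurable_from_top (f := fun m : ℕ => m % b)).comp (g1.const_mul _).nat_floor
          have g4 : Measurable (fun z => ⌊(b : ℝ) ^ (j - st S' j + 1 : ℕ) *
              Int.fract (orb k z (st S' j + 1))⌋₊ % b) :=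
            (measurable_from_top (f := fun m : ℕ => m % b)).comp (g2.const_mul _).nat_floor
          exact g3.prodMk g4
        exact hm (measurableSet_singleton _)
      by_cases h3 : S ⊆ Finset.range n
      · have e : V c = (C ∩ G) ∩ ({z | ∀ i : ℕ, i < n → ((i : ℤ) ∈ X z ↔ i ∈ S)} ∩
          {z | ∀ j : S, dig k b S' z j = ((c j).1.1, (c j).2.1)}) := by
          ext z
          simp only [V, mem_ofPred_eq, mem_inter_iff, h3, true_and]
        rw [e]
        exact (hCm.inter hG).inter (h1.inter h2)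
      · have e : V c = ∅ := by
          ext z
          simp only [V, mem_ofPred_eq, h3, false_and, and_false, mem_empty_iff_false]
        rw [e]
        exact MeasurableSet.empty
    have hVb : ∀ c, mQ.real (V c) ≤ 6 * ε := by
      intro c
      apply strip (hVm c) hε
      rintro z ⟨⟨hzC, hzG⟩, hz2, hSn, hz3⟩ w ⟨⟨hwC, hwG⟩, hw2, _, hw3⟩ hzw
      have hXX : ∀ i : ℤ, 0 ≤ i → i < n → (i ∈ X z ↔ i ∈ X w) := by
        intro i h0 hi
        obtain ⟨j, rfl⟩ := Int.eq_ofNat_of_zero_le h0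
        have hj : j < n := by exact_mod_cast hi
        exact (hz2 j hj).trans (hw2 j hj).symm
      have hXS : ∀ i : ℤ, 0 ≤ i → i < n → (i ∈ X z ↔ i ∈ S') := by
        intro i h0 hi
        obtain ⟨j, rfl⟩ := Int.eq_ofNat_of_zero_le h0
        have hj : j < n := by exact_mod_cast hi
        refine (hz2 j hj).trans ?_
        constructor
        · intro h; exact ⟨j, h, rfl⟩
        · rintro ⟨i, hi, h⟩
          have : j = i := by exact_mod_cast h
          rwa [this]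
      have h1 := Hexp z hzG w hwG hzw (hzC.trans hwC.symm) hXX ?_
      · obtain ⟨m, hm, hm2⟩ := snd_sub (hGQ hzG) (hGQ hwG) hzw
        refine ⟨m, hm, ?_⟩
        rw [hm2]
        simpa using h1
      · intro p q hpq hqn hrun h0
        apply dig_close hb0 (S := S') (p := p) (q := q)
        · intro i hi1 hi2
          exact (hXS i (by omega) (by omega)).1 (hrun i hi1 hi2)
        · rcases h0 with h0 | h0
          · rcases Nat.eq_zero_or_pos p with hp | hp
            · exact Or.inr hp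
            · left
              intro hcon
              exact h0 ((hXS _ (by omega) (by omega)).2 hcon)
          · exact Or.inr h0
        · exact hpq.le
        · intro j hj1 hj2
          have hjS : j ∈ S := (hz2 j (by omega)).1 (hrun j hj1 hj2)
          exact (hz3 ⟨j, hjS⟩).trans (hw3 ⟨j, hjS⟩).symm
    have hcov : {z | z ∈ C ∩ G ∧ tr n (X z) = S} ⊆ ⋃ c, V c := by
      rintro z ⟨hz, hz2⟩
      rw [mem_iUnion]
      refine ⟨fun j => (⟨(dig k b S' z j).1, Nat.mod_lt _ hb0⟩, ⟨(dig k b S' z j).2, Nat.mod_lt _ hb0⟩),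
        hz, ?_, ?_, fun j => rfl⟩
      · intro i hi
        rw [← hz2, mem_tr]
        exact ⟨fun h => ⟨hi, h⟩, fun h => h.2⟩
      · rw [← hz2]
        intro i hi
        exact Finset.mem_range.2 (mem_tr.1 hi).1
    calc mQ.real {z | z ∈ C ∩ G ∧ tr n (X z) = S} ≤ mQ.real (⋃ c, V c) := measureReal_mono hcov
      _ ≤ ∑ c, mQ.real (V c) := measureReal_iUnion_fintype_le _
      _ ≤ ∑ _c : (S → Fin b × Fin b), 6 * ε := Finset.sum_le_sum fun c _ => hVb c
      _ = ((b : ℝ) ^ 2) ^ S.card * (6 * ε) := by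
          simp only [Finset.sum_const, Finset.card_univ, Fintype.card_fun, Fintype.card_prod,
            Fintype.card_fin, Fintype.card_coe, nsmul_eq_mul]
          push_cast
          ring
      _ ≤ ((b : ℝ) ^ 2) ^ s * (6 * ε) := by
          apply mul_le_mul_of_nonneg_right _ (by positivity)
          apply pow_le_pow_right₀ _ hS
          have : (1 : ℝ) ≤ b := by exact_mod_cast hb
          nlinarith
  have hcov : C ∩ G ⊆ ⋃ S ∈ (Finset.range n).powerset.filter (fun S => S.card ≤ s),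
      {z | z ∈ C ∩ G ∧ tr n (X z) = S} := by
    intro z hz
    simp only [mem_iUnion]
    refine ⟨tr n (X z), ?_, hz, rfl⟩
    rw [Finset.mem_filter, Finset.mem_powerset]
    refine ⟨fun i hi => Finset.mem_range.2 (mem_tr.1 hi).1, ?_⟩
    rw [card_tr]
    exact hs z hz.2
  calc mQ.real (C ∩ G)
      ≤ mQ.real (⋃ S ∈ (Finset.range n).powerset.filter (fun S => S.card ≤ s),
        {z | z ∈ C ∩ G ∧ tr n (X z) = S}) := measureReal_mono hcov (measure_ne_top _ _)
    _ ≤ ∑ S ∈ (Finset.range n).powerset.filter (fun S => S.card ≤ s),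
        mQ.real {z | z ∈ C ∩ G ∧ tr n (X z) = S} := measureReal_biUnion_finset_le _ _
    _ ≤ ∑ S ∈ (Finset.range n).powerset.filter (fun S => S.card ≤ s),
        ((b : ℝ) ^ 2) ^ s * (6 * ε) :=
        Finset.sum_le_sum fun S hS => hU S (Finset.mem_filter.1 hS).2
    _ ≤ (1 + l) ^ n / l ^ s * ((b : ℝ) ^ 2) ^ s * (6 * ε) := by
        rw [Finset.sum_const, nsmul_eq_mul, mul_assoc]
        exact mul_le_mul_of_nonneg_right (card_small hl0 hl1 n s) (by positivity)

lemma mass_GS' {k c η m : ℝ} (hc : 0 < c) (hη : 0 < η) {X : ℝ × ℝ → Set ℤ} (hX : Equi (Tz k) X)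
    (hm : mQ.real {z | (0 : ℤ) ∈ X z} ≤ m) {n : ℕ}
    (hn : 1 ≤ n) : mQ.real (GS c η X n)ᶜ ≤ 2 * m / c + m / η := by
  have h2 : mQ.real {z | (0 : ℤ) ∈ P108C.dr c n (X z)} ≤ m / c := by
    rw [le_div_iff₀ hc, mul_comm]
    exact (hX.maximal_right (mp_Tz k) hc n).trans hm
  have h3 : mQ.real {z | ((n : ℤ) - 1) ∈ P108C.dl c n (X z)} ≤ m / c := by
    rw [(hX.dl c n).measure_eq (mp_Tz k) _, le_div_iff₀ hc, mul_comm]
    exact (hX.maximal_left (mp_Tz k) hc n).trans hm
  have hn0 : (0 : ℝ) < n := by exact_mod_cast hn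
  have h4 : mQ.real {z | η * n ≤ (ms (X z) 0 n : ℝ)} ≤ m / η := by
    have h5 := mul_meas_ge_le_integral_of_nonneg (μ := mQ)
      (Filter.Eventually.of_forall fun z => (Nat.cast_nonneg (ms (X z) 0 n) : (0 : ℝ) ≤ _))
      (hX.integrable_ms 0 n) (η * n)
    rw [hX.integral_ms (mp_Tz k) (by omega : (0 : ℤ) ≤ n)] at h5
    rw [le_div_iff₀ hη]
    have h6 : η * n * mQ.real {z | η * n ≤ (ms (X z) 0 n : ℝ)} ≤ n * m := by
      refine h5.trans ?_
      push_cast
      rw [sub_zero]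
      exact mul_le_mul_of_nonneg_left hm hn0.le
    have h7 : n * (mQ.real {z | η * n ≤ (ms (X z) 0 n : ℝ)} * η) ≤ n * m := by linarith
    exact le_of_mul_le_mul_left h7 hn0
  have hQ : mQ.real (Qᶜ) = 0 := by
    have : mQ Qᶜ = 0 := by
      unfold mQ
      rw [Measure.restrict_apply measurableSet_Q.compl, compl_inter_self, measure_empty]
    rw [measureReal_def, this]; simp
  have hcov : (GS c η X n)ᶜ ⊆ Qᶜ ∪ ({z | (0 : ℤ) ∈ P108C.dr c n (X z)} ∪
      ({z | ((n : ℤ) - 1) ∈ P108C.dl c n (X z)} ∪ {z | η * n ≤ (ms (X z) 0 n : ℝ)})) := by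
    intro z hz
    by_contra hcon
    simp only [mem_union, mem_compl_iff, mem_ofPred_eq, not_or, not_not, not_le] at hcon
    exact hz ⟨hcon.1, hcon.2.1, hcon.2.2.1, hcon.2.2.2.le⟩
  calc mQ.real (GS c η X n)ᶜ ≤ mQ.real (Qᶜ ∪ ({z | (0 : ℤ) ∈ P108C.dr c n (X z)} ∪
    ({z | ((n : ℤ) - 1) ∈ P108C.dl c n (X z)} ∪ {z | η * n ≤ (ms (X z) 0 n : ℝ)}))) :=
        measureReal_mono hcov
    _ ≤ mQ.real Qᶜ + (mQ.real {z | (0 : ℤ) ∈ P108C.dr c n (X z)} +
        (mQ.real {z | ((n : ℤ) - 1) ∈ P108C.dl c n (X z)} +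
          mQ.real {z | η * n ≤ (ms (X z) 0 n : ℝ)})) :=
        (measureReal_union_le _ _).trans (add_le_add le_rfl ((measureReal_union_le _ _).trans
          (add_le_add le_rfl (measureReal_union_le _ _))))
    _ ≤ 0 + (m / c + (m / c + m / η)) := by
        rw [hQ]; gcongr
    _ = 2 * m / c + m / η := by ring

theorem closure_mass' (hN : NearBound) (hE : EBound) (hC : NcBound) (hQ : EquiB)
    (hdec : Decor) : ∃ k0 : ℝ, ∀ k ≥ k0, ∃ s ∈ Icc (0 : ℝ) 1,
      Equi (Tz k) (fun z => ClInf cc (Bset k s (ao k z))) ∧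
      mQ.real {z | (0 : ℤ) ∈ ClInf cc (Bset k s (ao k z))} ≤ 8 * k ^ (-(1 / 20000) : ℝ) := by
  obtain ⟨k1, hN⟩ := hN
  obtain ⟨k2, hE⟩ := hE
  obtain ⟨k3, hC⟩ := hC
  obtain ⟨C, k5, hC0, hdec⟩ := hdec
  set F : ℝ → ℝ := fun k => 4 * k ^ (-(1 / 20000) : ℝ) with hF
  have hFt : Tendsto F atTop (𝓝 0) := by
    have h := (tendsto_rpow_neg_atTop (show (0 : ℝ) < 1 / 20000 by norm_num)).const_mul 4
    rwa [mul_zero] at h
  have hev1 : ∀ᶠ k in atTop, 4 * F k * C * ((1 + cc) ^ 2 / cc ^ 3) ^ 2 ≤ 1 := by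
    have h : Tendsto (fun k => 4 * F k * C * ((1 + cc) ^ 2 / cc ^ 3) ^ 2) atTop (𝓝 0) := by
      have := ((hFt.const_mul 4).mul_const C).mul_const (((1 + cc) ^ 2 / cc ^ 3) ^ 2)
      simpa using this
    exact (h.eventually (gt_mem_nhds (show (0 : ℝ) < 1 by norm_num))).mono fun k hk => hk.le
  obtain ⟨k6, h6⟩ := eventually_atTop.1 hev1
  refine ⟨max (max (max k1 k2) k3) (max (max k5 k6) 16), fun k hk => ?_⟩
  simp only [ge_iff_le, max_le_iff] at hk
  obtain ⟨⟨⟨hk1, hk2⟩, hk3⟩, ⟨hk5, hk6⟩, hk8⟩ := hk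
  have hk0 : 0 < k := by linarith
  obtain ⟨s, hs, hNs⟩ := hN k hk1
  have hEs := hE k hk2 s hs
  obtain ⟨hC1, hC2⟩ := hC k hk3 s hs
  obtain ⟨hQ1, hQ2⟩ := hQ k s (by linarith)
  have hkinv : k⁻¹ ≤ k ^ (-(1 / 20000) : ℝ) := by
    rw [← Real.rpow_neg_one]
    exact Real.rpow_le_rpow_of_exponent_le (by linarith) (by norm_num)
  have hFn : mQ.real {z | (0 : ℤ) ∈ Bset k s (ao k z)} + mQ.real (Nset k s) ≤ F k := by
    have h1 : mQ.real {z | (0 : ℤ) ∈ Bset k s (ao k z)} ≤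
        mQ.real {z | (0 : ℤ) ∈ Sk.Eset k s (ao k z)} :=
      measureReal_mono fun z hz => Sk.Bset_subset_Eset hz
    have h2 : mQ.real (Nset k s) ≤ mQ.real {z | (0 : ℤ) ∈ Sk.Eset k s (ao k z)} +
        mQ.real {z | Sk.NcMax k s (ao k z)} + mQ.real (Sk.Near k s) := by
      unfold Nset
      exact (measureReal_union_le _ _).trans (add_le_add (measureReal_union_le _ _) le_rfl)
    simp only [hF]
    linarith
  have hX := closure_bound_gen_inf (mp_Tz k) hQ1 (Bm := fun z => Sk.Bm k s (ao k z))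
    (Bp := fun z => Sk.Bp k s (ao k z)) (fun z => Sk.Bm_subset) (fun z => Sk.Bp_subset)
    (c := cc) (C := C) (F := F k) (by norm_num) hC0 (fun _ => Nset k s)
    (fun n z hz h0 i _ hi hiB => Sk.mem_Bm_of (fun h => hz (Or.inl (Or.inl h))) hi hiB)
    (fun n z hz h0 i hi _ hiB => Sk.mem_Bp_of (fun h => hz (Or.inl (Or.inl h))) hi hiB)
    (fun n => hdec k hk5 s hs n) (fun _ => hFn) (h6 k hk6)
  have hEq : Equi (Tz k) (fun z => ClInf cc (Bset k s (ao k z))) := by
    refine ⟨fun j z => ?_, fun i => meas_ClInf hQ1.meas cc i⟩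
    ext i
    simp only [ClInf, mem_iUnion, mem_preimage]
    refine exists_congr fun n => ?_
    have := (hQ1.cl cc n).shift j z
    rw [this]
    rfl
  exact ⟨s, hs, hEq, hX.trans (le_of_eq (by simp only [hF]; ring))⟩

end Vale.Agent.N108
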