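import Vale.Agent.P109.H787.Shannon
import Mathlib

/-!
# P108: general entropy estimates (non-uniform lower bound, Markov-type upper bound, generators)
-/

open MeasureTheory Filter Set Topology
open scoped ENNReal

namespace Vale.Agent.N108

open Vale.Agent.P109.KS

variable {X A B : Type} [MeasurableSpace X] [Fintype A] [Fintype B]

lemma sum_eq_integral {μ : Measure X} [IsFiniteMeasure μ] {F : X → A}
    (hF : ∀ a, MeasurableSet (F ⁻¹' {a})) (c : A → ℝ) :
    ∑ a, μ.real (F ⁻¹' {a}) * c a = ∫ x, c (F x) ∂μ := by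
  classical
  have e : (fun x => c (F x)) = fun x => ∑ a, (F ⁻¹' {a}).indicator (fun _ => c a) x := by
    funext x
    rw [Finset.sum_eq_single (F x)]
    · simp
    · intro b _ hb
      have : x ∉ F ⁻¹' {b} := fun h => hb (mem_singleton_iff.1 h).symm
      rw [indicator_of_notMem this]
    · simp
  rw [e, integral_finsetSum _ fun a _ => (integrable_const _).indicator (hF a)]
  refine Finset.sum_congr rfl fun a _ => ?_
  rw [integral_indicator_const _ (hF a), smul_eq_mul]

omit [Fintype A] [Fintype B] in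
lemma meas_pair {F : X → A} {G : X → B} (hF : ∀ a, MeasurableSet (F ⁻¹' {a}))
    (hG : ∀ b, MeasurableSet (G ⁻¹' {b})) (q : A × B) :
    MeasurableSet ((fun x => (F x, G x)) ⁻¹' {q}) := by
  have h : (fun x => (F x, G x)) ⁻¹' {q} = F ⁻¹' {q.1} ∩ G ⁻¹' {q.2} := by
    ext x
    simp [Prod.ext_iff]
  rw [h]
  exact (hF _).inter (hG _)

variable {μ : Measure X} [IsProbabilityMeasure μ]

/-- Non-uniform lower bound for the Shannon entropy. -/
theorem shannon_ge_int {f : X → A} (hf : ∀ a, MeasurableSet (f ⁻¹' {a})) {G : Set X}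
    (hG : MeasurableSet G) {c : A → ℝ} (h : ∀ a, μ.real (f ⁻¹' {a} ∩ G) ≤ Real.exp (-c a)) :
    ∫ x in G, c (f x) ∂μ - Real.log 2 ≤ shannon μ f := by
  classical
  set e : X → Bool := fun x => decide (x ∈ G) with he
  have het : e ⁻¹' {true} = G := by ext x; simp [he]
  have hem : ∀ b, MeasurableSet (e ⁻¹' {b}) := by
    intro b
    cases b
    · have : e ⁻¹' {false} = Gᶜ := by ext x; simp [he]
      rw [this]; exact hG.compl
    · rw [het]; exact hG
  have h1 := shannon_prod_le (μ := μ) hf hem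
  have h2 := shannon_le_log_card (μ := μ) hem
  rw [Fintype.card_bool, Nat.cast_ofNat] at h2
  have h3 : ∫ x in G, c (f x) ∂μ ≤ shannon μ (fun x => (f x, e x)) := by
    rw [← sum_eq_integral (μ := μ.restrict G) hf c]
    unfold shannon
    rw [Fintype.sum_prod_type]
    refine Finset.sum_le_sum fun a _ => ?_
    rw [Fintype.sum_bool, measureReal_restrict_apply (hf a)]
    have e1 : (fun x => (f x, e x)) ⁻¹' {(a, true)} = f ⁻¹' {a} ∩ G := by
      ext x; simp [he]
    rw [e1]
    have h4 : 0 ≤ Real.negMulLog (μ.real ((fun x => (f x, e x)) ⁻¹' {(a, false)})) :=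
      Real.negMulLog_nonneg measureReal_nonneg measureReal_le_one
    have h5 : μ.real (f ⁻¹' {a} ∩ G) * c a ≤ Real.negMulLog (μ.real (f ⁻¹' {a} ∩ G)) := by
      rcases (measureReal_nonneg (μ := μ) (s := f ⁻¹' {a} ∩ G)).eq_or_lt with h0 | h0
      · rw [← h0]; simp
      · have := (Real.log_le_iff_le_exp h0).2 (h a)
        rw [Real.negMulLog, neg_mul, ← mul_neg]
        exact mul_le_mul_of_nonneg_left (by linarith) h0.le
    linarith
  linarith

/-- The entropy of a pair, when the second component has few values given the first. -/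
theorem shannon_pair_le {F : X → A} {G : X → B} (hF : ∀ a, MeasurableSet (F ⁻¹' {a}))
    (hG : ∀ b, MeasurableSet (G ⁻¹' {b})) (R : A → Finset B) (hR : ∀ x, G x ∈ R (F x))
    {c : A → ℝ} (hc0 : ∀ a, 0 < c a) (hc : ∀ a, ((R a).card : ℝ) ≤ c a) :
    shannon μ (fun x => (F x, G x)) ≤ shannon μ F + ∫ x, Real.log (c (F x)) ∂μ := by
  classical
  rw [← sum_eq_integral hF fun a => Real.log (c a)]
  set p : A → B → ℝ := fun a b => μ.real ((fun x => (F x, G x)) ⁻¹' {(a, b)}) with hp
  set P : A → ℝ := fun a => μ.real (F ⁻¹' {a}) with hP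
  have hsum : ∀ a, ∑ b ∈ R a, p a b = P a := by
    intro a
    have h1 := measureReal_preimage_eq_sum (μ := μ) (meas_pair hF hG) ((R a).image fun b => (a, b))
    rw [Finset.sum_image fun b _ b' _ h => (Prod.ext_iff.1 h).2] at h1
    rw [hp, hP]
    simp only
    rw [← h1]
    congr 1
    ext x
    simp only [Finset.coe_image, mem_preimage, mem_image, Finset.mem_coe, Prod.mk.injEq,
      mem_singleton_iff]
    constructor
    · rintro ⟨b, _, h, _⟩; exact h.symm
    · rintro rfl; exact ⟨G x, hR x, rfl, rfl⟩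
  have hz : ∀ a b, b ∉ R a → p a b = 0 := by
    intro a b hb
    have : (fun x => (F x, G x)) ⁻¹' {(a, b)} = ∅ := by
      ext x
      simp only [mem_preimage, mem_singleton_iff, Prod.mk.injEq, mem_empty_iff_false, iff_false]
      rintro ⟨rfl, rfl⟩
      exact hb (hR x)
    simp only [hp, this, measureReal_empty]
  unfold shannon
  rw [Fintype.sum_prod_type, ← Finset.sum_add_distrib]
  refine Finset.sum_le_sum fun a _ => ?_
  change ∑ b, Real.negMulLog (p a b) ≤ Real.negMulLog (P a) + P a * Real.log (c a)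
  have hP0 : 0 ≤ P a := measureReal_nonneg
  have hp0 : ∀ b, 0 ≤ p a b := fun b => measureReal_nonneg
  rw [← Finset.sum_subset (Finset.subset_univ (R a)) fun b _ hb => by rw [hz a b hb]; simp]
  rcases hP0.eq_or_lt with h0 | h0
  · have h1 : ∀ b ∈ R a, p a b = 0 :=
      (Finset.sum_eq_zero_iff_of_nonneg fun b _ => hp0 b).1 ((hsum a).trans h0.symm)
    rw [Finset.sum_eq_zero fun b hb => by rw [h1 b hb]; simp, ← h0]
    simp
  · have hq : 0 < P a / c a := div_pos h0 (hc0 a)
    have h1 : ∑ b ∈ R a, (p a b * Real.log (P a / c a) + Real.negMulLog (p a b)) ≤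
        ∑ b ∈ R a, (P a / c a - p a b) :=
      Finset.sum_le_sum fun b _ => gibbs_term (hp0 b) hq.le fun h => absurd h hq.ne'
    rw [Finset.sum_add_distrib, ← Finset.sum_mul, Finset.sum_sub_distrib, hsum, Finset.sum_const,
      nsmul_eq_mul, Real.log_div h0.ne' (hc0 a).ne'] at h1
    have h2 : ((R a).card : ℝ) * (P a / c a) ≤ P a := by
      calc ((R a).card : ℝ) * (P a / c a) ≤ c a * (P a / c a) :=
            mul_le_mul_of_nonneg_right (hc a) hq.le
        _ = P a := mul_div_cancel₀ _ (hc0 a).ne'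
    rw [Real.negMulLog]
    linarith

/-- Markov-type bound for the entropy of names. -/
theorem shannon_name_markov {T : X → X} (hT : MeasurePreserving T μ μ) {g : X → A}
    (hg : ∀ a, MeasurableSet (g ⁻¹' {a})) (R : A → Finset A) (hR : ∀ x, g (T x) ∈ R (g x))
    {c : A → ℝ} (hc0 : ∀ a, 0 < c a) (hc : ∀ a, ((R a).card : ℝ) ≤ c a) (n : ℕ) :
    shannon μ (name T g (n + 1)) ≤
      Real.log (Fintype.card A) + n * ∫ x, Real.log (c (g x)) ∂μ := by
  classical
  induction n with
  | zero =>
    have h1 := shannon_name_le hT hg 1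
    have h2 := shannon_le_log_card (μ := μ) hg
    simp only [Nat.cast_one, one_mul, Nat.cast_zero, zero_mul, add_zero] at h1 ⊢
    exact h1.trans h2
  | succ n ih =>
    have hn := measurableSet_name hT.measurable hg (n + 1)
    have hi := measurableSet_comp_iterate hT.measurable hg (n + 1)
    have e : name T g (n + 1 + 1) = fun x => (fun q : (Fin (n + 1) → A) × A =>
        (Fin.snoc q.1 q.2 : Fin (n + 1 + 1) → A)) (name T g (n + 1) x, g (T^[n + 1] x)) := by
      funext x i
      refine Fin.lastCases ?_ (fun i => ?_) i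
      · simp [name]
      · simp [name]
    have h1 := shannon_comp_le (μ := μ) (meas_pair hn hi)
      (fun q : (Fin (n + 1) → A) × A => (Fin.snoc q.1 q.2 : Fin (n + 1 + 1) → A))
    have h2 := shannon_pair_le (μ := μ) hn hi (fun w => R (w (Fin.last n)))
      (fun x => by
        simp only [name, Fin.val_last, Function.iterate_succ_apply']
        exact hR _) (c := fun w => c (w (Fin.last n))) (fun w => hc0 _) (fun w => hc _)
    have h3 : ∫ x, Real.log (c (name T g (n + 1) x (Fin.last n))) ∂μ =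
        ∫ x, Real.log (c (g x)) ∂μ := by
      simp only [name, Fin.val_last]
      rw [← sum_eq_integral (measurableSet_comp_iterate hT.measurable hg n)
        (fun a => Real.log (c a)), ← sum_eq_integral hg (fun a => Real.log (c a))]
      refine Finset.sum_congr rfl fun a _ => ?_
      congr 1
      exact (hT.iterate n).measureReal_preimage (hg a).nullMeasurableSet
    rw [e]
    rw [h3] at h2
    push_cast
    linarith

/-- Approximation of a finite coding by functions of codings with small fibres. -/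
theorem exists_approx {X : Type} [MetricSpace X] [MeasurableSpace X] [BorelSpace X]
    [CompactSpace X] (μ : Measure X) [IsProbabilityMeasure μ] {r : ℕ} {f : X → Fin r}
    (hf : Measurable f) {δ : ℝ} (hδ : 0 < δ) : ∃ d : ℝ, 0 < d ∧ ∀ (A : Type) (g : X → A),
      (∀ x y, g x = g y → dist x y < d) → ∃ φ : A → Fin r, μ.real {x | f x ≠ φ (g x)} ≤ δ := by
  classical
  have hne : Nonempty X := nonempty_of_isProbabilityMeasure μ
  have hr : (0 : ℝ) < r := by exact_mod_cast (f hne.some).pos
  have h1 : ∀ i : Fin r, ∃ K, K ⊆ f ⁻¹' {i} ∧ IsCompact K ∧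
      μ (f ⁻¹' {i} \ K) < ENNReal.ofReal (δ / r) := fun i =>
    (hf (measurableSet_singleton i)).exists_isCompact_sdiff_lt (measure_ne_top _ _)
      (ENNReal.ofReal_pos.2 (by positivity)).ne'
  choose K hK1 hK2 hK3 using h1
  have h2 : ∀ q : Fin r × Fin r, ∃ d : ℝ, 0 < d ∧ ∀ x ∈ K q.1, ∀ y ∈ K q.2, dist x y < d →
      q.1 = q.2 := by
    intro q
    by_cases hq : q.1 = q.2
    · exact ⟨1, one_pos, fun _ _ _ _ _ => hq⟩
    · have hd : Disjoint (K q.1) (K q.2) := by
        rw [Set.disjoint_left]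
        intro x h1 h2
        exact hq ((mem_singleton_iff.1 (hK1 _ h1)).symm.trans (hK1 _ h2))
      obtain ⟨d, hd0, hd1⟩ := hd.exists_thickenings (hK2 _) (hK2 _).isClosed
      refine ⟨d, hd0, fun x hx y hy hxy => ?_⟩
      exact (Set.disjoint_left.1 hd1 (Metric.self_subset_thickening hd0 _ hx)
        (Metric.mem_thickening_iff.2 ⟨y, hy, hxy⟩)).elim
  choose d hd0 hd using h2
  have hq : (Finset.univ : Finset (Fin r × Fin r)).Nonempty := ⟨(f hne.some, f hne.some), by simp⟩
  refine ⟨Finset.univ.inf' hq d, (Finset.lt_inf'_iff _).2 fun q _ => hd0 q, fun A g hg => ?_⟩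
  refine ⟨fun a => if h : ∃ x, x ∈ K (f x) ∧ g x = a then f h.choose else f hne.some, ?_⟩
  have h3 : {x | f x ≠ (if h : ∃ y, y ∈ K (f y) ∧ g y = g x then f h.choose else f hne.some)} ⊆
      ⋃ i ∈ (Finset.univ : Finset (Fin r)), (f ⁻¹' {i} \ K i) := by
    intro x hx
    simp only [mem_iUnion]
    refine ⟨f x, Finset.mem_univ _, rfl, fun hxK => hx ?_⟩
    have h4 : ∃ y, y ∈ K (f y) ∧ g y = g x := ⟨x, hxK, rfl⟩
    rw [dif_pos h4]
    exact hd (f x, f h4.choose) x hxK _ h4.choose_spec.1
      ((hg _ _ h4.choose_spec.2.symm).trans_le (Finset.inf'_le _ (Finset.mem_univ _)))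
  refine (measureReal_mono h3 (measure_ne_top _ _)).trans
    ((measureReal_biUnion_finset_le _ _).trans ?_)
  calc ∑ i : Fin r, μ.real (f ⁻¹' {i} \ K i) ≤ ∑ _i : Fin r, δ / r :=
        Finset.sum_le_sum fun i _ => ENNReal.toReal_le_of_le_ofReal (by positivity) (hK3 i).le
    _ = δ := by
        rw [Finset.sum_const, Finset.card_univ, Fintype.card_fin, nsmul_eq_mul]
        field_simp

/-- The entropy is bounded by the growth rates of codings with arbitrarily small fibres. -/
theorem ksEntropy_le {X : Type} [MetricSpace X] [MeasurableSpace X] [BorelSpace X]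
    [CompactSpace X] {μ : Measure X} [IsProbabilityMeasure μ] {T : X → X}
    (hT : MeasurePreserving T μ μ) {h : ℝ} (hh : 0 ≤ h)
    (H : ∀ d : ℝ, 0 < d → ∃ (A : Type) (_ : Fintype A) (g : X → A) (C : ℝ),
      (∀ a, MeasurableSet (g ⁻¹' {a})) ∧ (∀ x y, g x = g y → dist x y < d) ∧
        ∀ n : ℕ, shannon μ (name T g (n + 1)) ≤ C + n * h) :
    ksEntropy μ T ≤ ENNReal.ofReal h := by
  classical
  unfold ksEntropy
  refine iSup_le fun r => iSup_le fun f => iSup_le fun hf => ?_
  apply ENNReal.le_of_forall_pos_le_add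
  intro ε hε _
  have hε' : (0 : ℝ) < ε := by exact_mod_cast hε
  obtain ⟨δ, hδ, hsmall⟩ := exists_shannon_small (Fin r) (ε := ε / 2) (by positivity)
  obtain ⟨d, hd, happ⟩ := exists_approx μ hf hδ
  obtain ⟨A, _, g, C, hg, hgd, hgn⟩ := H d hd
  obtain ⟨φ, hφ⟩ := happ A g hgd
  have hfm : ∀ a, MeasurableSet (f ⁻¹' {a}) := fun a => hf (measurableSet_singleton a)
  set ψ : Fin r × A → Option (Fin r) := fun q => if q.1 = φ q.2 then none else some q.1 with hψ
  set e : X → Option (Fin r) := fun x => ψ (f x, g x) with he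
  have hem : ∀ a, MeasurableSet (e ⁻¹' {a}) := by
    intro a
    have : e ⁻¹' {a} = ⋃ q ∈ ψ ⁻¹' {a}, (fun x => (f x, g x)) ⁻¹' {q} := by
      ext x; simp [he]
    rw [this]
    exact MeasurableSet.biUnion (Set.toFinite _).countable fun q _ => meas_pair hfm hg q
  have he1 : shannon μ e ≤ ε / 2 := by
    apply hsmall X μ e hem
    refine le_trans (le_of_eq ?_) hφ
    congr 1
    ext x
    by_cases hx : f x = φ (g x) <;> simp [he, hψ, hx]
  have hb : ∀ n : ℕ, shannon μ (name T f (n + 1)) ≤ C + n * h + (n + 1) * (ε / 2) := by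
    intro n
    have hgn' := measurableSet_name hT.measurable hg (n + 1)
    have hen := measurableSet_name hT.measurable hem (n + 1)
    have h2 : name T f (n + 1) = fun x =>
        (fun z : (Fin (n + 1) → A) × (Fin (n + 1) → Option (Fin r)) =>
          fun i => (z.2 i).getD (φ (z.1 i))) (name T g (n + 1) x, name T e (n + 1) x) := by
      funext x i
      by_cases hx : f (T^[i] x) = φ (g (T^[i] x)) <;> simp [name, he, hψ, hx]
    have h4 := shannon_comp_le (μ := μ) (meas_pair hgn' hen)
      (fun z : (Fin (n + 1) → A) × (Fin (n + 1) → Option (Fin r)) =>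
          fun i => (z.2 i).getD (φ (z.1 i)))
    have h5 := shannon_prod_le (μ := μ) hgn' hen
    have h7 := shannon_name_le hT hem (n + 1)
    have h8 : ((n + 1 : ℕ) : ℝ) * shannon μ e ≤ (n + 1) * (ε / 2) := by
      push_cast
      exact mul_le_mul_of_nonneg_left he1 (by positivity)
    rw [h2]
    linarith [hgn n]
  refine limsup_le_of_le (by isBoundedDefault) ?_
  have hlim : ∀ᶠ n : ℕ in atTop, C / (n : ℝ) < ε / 2 :=
    (tendsto_order.1 (tendsto_const_div_atTop_nhds_zero_nat C)).2 _ (by positivity)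
  filter_upwards [hlim, eventually_gt_atTop 0] with n hn hn0
  obtain ⟨m, rfl⟩ : ∃ m, n = m + 1 := ⟨n - 1, by omega⟩
  have hm : (0 : ℝ) < ((m + 1 : ℕ) : ℝ) := by positivity
  rw [← ENNReal.ofReal_coe_nnreal, ← ENNReal.ofReal_add hh hε'.le]
  apply ENNReal.ofReal_le_ofReal
  rw [div_lt_iff₀ hm] at hn
  rw [div_le_iff₀ hm]
  have := hb m
  push_cast at hn ⊢
  nlinarith

end Vale.Agent.N108
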