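import Vale.Agent.N108.Sep
import Vale.Agent.P108L5.Main

/-!
# P108: the sharp lower bound and Chirikov's formula
-/

open MeasureTheory Filter Set Topology
open scoped ENNReal

namespace Vale.Agent.N108

open Vale.Agent.P108 Vale.Agent.P108.FT Vale.Agent.P108.Dyn Vale.Agent.P108.H504 P108C
open Vale.Agent.P108.H954 Vale.Agent.P109.KS
open Vale.Agent.P108.H786 (ao)
open Vale.Agent.P108.Sk (Setting GoodWin LongCl Bset cc Nset NearBound EBound NcBound EquiB Decor)

lemma integrable_fin {X A : Type} [MeasurableSpace X] [Fintype A] {μ : Measure X}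
    [IsFiniteMeasure μ] {f : X → A} (hf : ∀ a, MeasurableSet (f ⁻¹' {a})) (c : A → ℝ) :
    Integrable (fun x => c (f x)) μ := by
  let : MeasurableSpace A := ⊤
  exact integrable_bdd ((measurable_from_top (f := c)).comp (measurable_to_countable' hf))
    fun x => Finset.single_le_sum (f := fun a => |c a|) (fun a _ => abs_nonneg _)
      (Finset.mem_univ (f x))

lemma ks_ge_of_linear {X : Type} [MeasurableSpace X] {μ : Measure X} {T : X → X} {r : ℕ}
    {f : X → Fin r} (hf : Measurable f) {h C : ℝ}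
    (H : ∀ᶠ n : ℕ in atTop, n * h - C ≤ shannon μ (name T f n)) :
    ENNReal.ofReal h ≤ ksEntropy μ T := by
  have h1 : Tendsto (fun n : ℕ => ENNReal.ofReal (h - C / n)) atTop (𝓝 (ENNReal.ofReal h)) := by
    apply ENNReal.tendsto_ofReal
    simpa using (tendsto_const_nhds (x := h)).sub (tendsto_const_div_atTop_nhds_zero_nat C)
  rw [← h1.limsup_eq]
  refine le_trans (limsup_le_limsup ?_)
    (le_iSup_of_le r (le_iSup_of_le f (le_iSup_of_le hf le_rfl)))
  filter_upwards [H, eventually_gt_atTop 0] with n hn hn0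
  have hn1 : (0 : ℝ) < n := by exact_mod_cast hn0
  apply ENNReal.ofReal_le_ofReal
  rw [le_div_iff₀ hn1, sub_mul, div_mul_cancel₀ _ hn1.ne']
  linarith

/-- the mean of a Birkhoff sum over a large set -/
lemma int_name_ge {X A : Type} [MeasurableSpace X] [Fintype A] {μ : Measure X}
    [IsProbabilityMeasure μ] {T : X → X} (hT : MeasurePreserving T μ μ) {f : X → A}
    (hf : ∀ a, MeasurableSet (f ⁻¹' {a})) {ψ : A → ℝ} {L K : ℝ} (hL : ∀ a, ψ a ≤ L) (hK : 0 ≤ K)
    (n : ℕ) {G : Set X} (hG : MeasurableSet G) :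
    n * ∫ x, ψ (f x) ∂μ - K - μ.real Gᶜ * (n * L) ≤
      ∫ x in G, (∑ i, ψ (name T f n x i) - K) ∂μ := by
  have hn := measurableSet_name hT.measurable hf n
  have hi := integrable_fin (μ := μ) hn fun a => ∑ i, ψ (a i) - K
  have h2 := integral_add_compl hG hi
  have h3 : ∫ x in Gᶜ, (∑ i, ψ (name T f n x i) - K) ∂μ ≤ μ.real Gᶜ * (n * L) := by
    rw [← smul_eq_mul, ← setIntegral_const]
    refine integral_mono hi.integrableOn (integrable_const _) fun x => ?_
    have := Finset.sum_le_card_nsmul Finset.univ (fun i => ψ (name T f n x i)) L fun i _ => hL _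
    rw [Finset.card_univ, Fintype.card_fin, nsmul_eq_mul] at this
    simp only
    linarith
  have h4 : ∫ x, (∑ i, ψ (name T f n x i) - K) ∂μ = n * ∫ x, ψ (f x) ∂μ - K := by
    have h5 : ∀ i : Fin n, Integrable (fun x => ψ (name T f n x i)) μ := fun i =>
      integrable_fin (measurableSet_comp_iterate hT.measurable hf i) ψ
    have h6 : ∀ i : Fin n, ∫ x, ψ (name T f n x i) ∂μ = ∫ x, ψ (f x) ∂μ := by
      intro i
      simp only [name]
      rw [← sum_eq_integral (measurableSet_comp_iterate hT.measurable hf i) ψ,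
        ← sum_eq_integral hf ψ]
      refine Finset.sum_congr rfl fun a _ => ?_
      congr 1
      exact (hT.iterate i).measureReal_preimage (hf a).nullMeasurableSet
    rw [integral_sub (integrable_finsetSum _ fun i _ => h5 i) (integrable_const _),
      integral_finsetSum _ fun i _ => h5 i]
    simp [h6]
  linarith

lemma small_err (c₁ c₂ : ℝ) {ε : ℝ} (hε : 0 < ε) : ∀ᶠ k : ℝ in atTop,
    k ^ (-(1 / 40000) : ℝ) * (c₁ + c₂ * Real.log k) ≤ ε := by
  have h1 := tendsto_rpow_neg_atTop (show (0 : ℝ) < 1 / 40000 by norm_num)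
  have h2 := (isLittleO_log_rpow_atTop (show (0 : ℝ) < 1 / 40000 by norm_num)).tendsto_div_nhds_zero
  have h3 := (h1.mul_const c₁).add (h2.const_mul c₂)
  rw [zero_mul, mul_zero, add_zero] at h3
  filter_upwards [h3.eventually (gt_mem_nhds hε), eventually_gt_atTop (0 : ℝ)] with k hk hk0
  rw [Real.rpow_neg hk0.le] at hk ⊢
  refine le_trans (le_of_eq ?_) hk.le
  ring

lemma cyl_num {l b η L c S : ℝ} {n r : ℕ} (hl0 : 0 < l) (hl1 : l ≤ 1) (hb : 1 ≤ b)
    (h3 : (r : ℝ) ≤ η * n) :
    (1 + l) ^ n / l ^ r * (b ^ 2) ^ r * (6 * Real.exp (-(S - 2 * L * (1 + η * n / c)))) ≤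
      Real.exp (-(S - ((l + η * (-Real.log l + 2 * Real.log b + 2 * L / c)) * n +
        (Real.log 6 + 2 * L)))) := by
  have hlogl : 0 ≤ -Real.log l := neg_nonneg.2 (Real.log_nonpos hl0.le hl1)
  have hlogb : 0 ≤ Real.log b := Real.log_nonneg hb
  rw [← Real.exp_log (show 0 < (1 + l) ^ n / l ^ r * (b ^ 2) ^ r by positivity),
    ← Real.exp_log (show (0 : ℝ) < 6 by norm_num), ← Real.exp_add, ← Real.exp_add,
    Real.exp_log (show (0 : ℝ) < 6 by norm_num)]
  apply Real.exp_le_exp.2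
  rw [Real.log_mul (by positivity) (by positivity), Real.log_div (by positivity) (by positivity),
    Real.log_pow, Real.log_pow, Real.log_pow, Real.log_pow]
  have h4 : Real.log (1 + l) ≤ l := by
    have := Real.log_le_sub_one_of_pos (show 0 < 1 + l by linarith)
    linarith
  have h5 := mul_le_mul_of_nonneg_left h4 (Nat.cast_nonneg (α := ℝ) n)
  have h6 := mul_le_mul_of_nonneg_right h3 (show 0 ≤ -Real.log l + 2 * Real.log b by positivity)
  have h7 : (l + η * (-Real.log l + 2 * Real.log b + 2 * L / c)) * n =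
      n * l + η * n * (-Real.log l + 2 * Real.log b) + 2 * L * (η * n / c) := by ring
  rw [h7]
  push_cast
  linarith

lemma log_ceil_le {B : ℝ} (hB : 2 ≤ B) (m : ℕ) :
    Real.log (⌈B ^ m⌉₊ : ℕ) ≤ (m + 1) * Real.log B := by
  have h2 : ((⌈B ^ m⌉₊ : ℕ) : ℝ) < B ^ m + 1 := Nat.ceil_lt_add_one (by positivity)
  have h3 : (1 : ℝ) ≤ B ^ m := one_le_pow₀ (by linarith)
  have h4 : ((⌈B ^ m⌉₊ : ℕ) : ℝ) ≤ B ^ (m + 1) := by rw [pow_succ]; nlinarith
  refine (Real.log_le_log (lt_of_lt_of_le (by linarith) (Nat.le_ceil (B ^ m))) h4).trans ?_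
  rw [Real.log_pow]
  push_cast
  exact le_rfl

lemma err_le {η c L x p β w ε : ℝ} (hη0 : 0 < η) (hη1 : η ≤ 1) (hc : 0 < c) (hL0 : 0 ≤ L)
    (hL : L ≤ 2 * x) (hw : 0 ≤ w) (hβ : β ≤ w * L)
    (h : η * (p + 2 * (2 * w + 18 / c + 8) * x) ≤ ε) :
    η * (p + 2 * β + 2 * L / c) + (2 * (8 * (η * η)) / c + 8 * (η * η) / η) * L ≤ ε := by
  have h1 : 2 * (8 * (η * η)) / c + 8 * (η * η) / η ≤ η * (16 / c + 8) := by
    have h2 : 8 * (η * η) / η = η * 8 := by field_simp
    have h3 : 2 * (8 * (η * η)) / c ≤ η * (16 / c) := by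
      rw [← mul_div_assoc]
      apply div_le_div_of_nonneg_right _ hc.le
      nlinarith
    rw [h2]
    linarith
  have h4 : 2 * β + 2 * L / c + (16 / c + 8) * L ≤ (2 * w + 18 / c + 8) * L := by
    have : 2 * L / c + (16 / c + 8) * L = (18 / c + 8) * L := by ring
    linarith
  have h5 : (2 * w + 18 / c + 8) * L ≤ (2 * w + 18 / c + 8) * (2 * x) :=
    mul_le_mul_of_nonneg_left hL (by positivity)
  have h6 := mul_le_mul_of_nonneg_left (h4.trans h5) hη0.le
  have h7 := mul_le_mul_of_nonneg_right h1 hL0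
  linarith

/-- **Lower bound.** -/
theorem ks_lower {ε : ℝ} (hε : 0 < ε) : ∀ᶠ k : ℝ in atTop,
    ENNReal.ofReal (Real.log (Real.pi * k) - ε) ≤ ksEntropy mQ (T k) ∧
      Real.log (Real.pi * k) - ε ≤ ent k := by
  obtain ⟨k1, hG⟩ := growRobust
  obtain ⟨k2, hM⟩ := closure_mass' nearBound
    (Sk.eBound_of_peak (Por.peakBound_of_line (H442.peakLine_of_zone H850.zone_eventually)))
    Sk.ncBound Sk.equiB H504.decor
  generalize (4000001 : ℕ) = W at hG
  set l : ℝ := min 1 (ε / 3) with hl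
  have hl0 : 0 < l := lt_min one_pos (by positivity)
  have hl1 : l ≤ 1 := min_le_left _ _
  have hlε : l ≤ ε / 3 := min_le_right _ _
  have hc0 : (0 : ℝ) < Sk.c0 := by norm_num
  filter_upwards [eventually_ge_atTop k1, eventually_ge_atTop k2,
    eventually_ge_atTop ((2 : ℝ) ^ 200), lo_int (ε := ε / 3) (by positivity),
    small_err (-Real.log l) (2 * (2 * (5 * W + 4) + 18 / Sk.c0 + 8)) (ε := ε / 3) (by positivity)]
    with k hk1 hk2 hk200 hI herr
  have hk9 : (9 : ℝ) ≤ k := le_trans (by norm_num) hk200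
  have hk0 : (0 : ℝ) < k := by linarith
  obtain ⟨s, hs, hEq, hmass⟩ := hM k hk2
  set η : ℝ := k ^ (-(1 / 40000) : ℝ) with hη
  have hη0 : 0 < η := Real.rpow_pos_of_pos hk0 _
  have hη1 : η ≤ 1 := Real.rpow_le_one_of_one_le_of_nonpos (by linarith) (by norm_num)
  have hηη : k ^ (-(1 / 20000) : ℝ) = η * η := by
    rw [hη, ← Real.rpow_add hk0]; norm_num
  rw [hηη] at hmass
  set N : ℕ := ⌈40 * k⌉₊ with hNdef
  have hN40 : 40 * k ≤ N := Nat.le_ceil _
  have hN0 : 0 < N := Nat.ceil_pos.2 (by positivity)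
  have : NeZero N := ⟨hN0.ne'⟩
  set b : ℕ := ⌈(9 * k) ^ (5 * W + 3)⌉₊ with hb
  have hbB : (9 * k) ^ (5 * W + 3) ≤ b := Nat.le_ceil _
  have hb1 : 1 ≤ b := Nat.ceil_pos.2 (by positivity)
  have hb0 : (0 : ℝ) < b := by exact_mod_cast hb1
  have hB1 : (1 : ℝ) ≤ 9 * k := by linarith
  have hblog : Real.log b ≤ (5 * W + 4) * Real.log (9 * k) := by
    refine (log_ceil_le (by linarith) _).trans (le_of_eq ?_)
    push_cast
    ring
  have hlogb : 0 ≤ Real.log b := Real.log_nonneg (by exact_mod_cast hb1)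
  set L := Real.log (9 * k) with hL
  have hL2 : L ≤ 2 * Real.log k := by
    rw [hL, Real.log_mul (by norm_num) hk0.ne', two_mul]
    have := Real.log_le_log (by norm_num) hk9
    linarith
  have hL0 : 0 ≤ L := Real.log_nonneg hB1
  have hlogl : 0 ≤ -Real.log l := neg_nonneg.2 (Real.log_nonpos hl0.le hl1)
  set X : ℝ × ℝ → Set ℤ := fun z => ClInf cc (Bset k s (ao k z)) with hX
  set E : ℝ := l + η * (-Real.log l + 2 * Real.log b + 2 * L / Sk.c0) with hE
  set γ : ℝ := 2 * (8 * (η * η)) / Sk.c0 + 8 * (η * η) / η with hγ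
  set I : ℝ := ∫ z, psi k N (cod N z) ∂mQ with hI'
  have hcod : ∀ j, MeasurableSet (cod N ⁻¹' {j}) := fun j =>
    measurable_cod N (measurableSet_singleton j)
  have hψL : ∀ j, psi k N j ≤ L := by
    intro j
    refine Real.log_le_log (lt_max_of_lt_right one_pos) (max_le ?_ hB1)
    have h1 := abs_a_le k (((j : ℕ) : ℝ) / N)
    rw [abs_of_pos hk0] at h1
    nlinarith [Real.pi_lt_d2]
  have hIge : Real.log (Real.pi * k) - ε / 3 ≤ I := by
    refine hI.trans (integral_mono_of_nonneg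
      (Eventually.of_forall fun z => Real.log_nonneg (le_max_right _ _))
      (integrable_fin hcod (psi k N)) (Eventually.of_forall fun z => ?_))
    refine Real.log_le_log (lt_max_of_lt_right one_pos) (max_le_max ?_ le_rfl)
    have h1 := cell_a hk0.le hN40 z
    have h2 := abs_sub_abs_le_abs_sub (FT.a k z.1) (FT.a k (((cod N z : ℕ) : ℝ) / N))
    rw [abs_sub_comm] at h2
    linarith
  have hsmall : E + γ * L ≤ 2 * ε / 3 := by
    have h1 := err_le hη0 hη1 hc0 hL0 hL2 (by positivity) hblog herr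
    rw [← hγ] at h1
    rw [hE]
    linarith only [h1, hlε]
  have hlog6 : 0 ≤ Real.log 6 := Real.log_nonneg (by norm_num)
  have hGm := fun n => measurableSet_GS (c := Sk.c0) (η := η) hEq n
  have hint : ∀ n : ℕ, 1 ≤ n → n * (I - E - γ * L) - (Real.log 6 + 2 * L) ≤
      ∫ z in GS Sk.c0 η X n, (∑ i, psi k N (name (T k) (cod N) n z i) -
        (E * n + (Real.log 6 + 2 * L))) ∂mQ := by
    intro n hn
    have h1 := int_name_ge (mp_T k) hcod hψL (K := E * n + (Real.log 6 + 2 * L))
      (by positivity) n (hGm n)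
    have h2 := mass_GS' hc0 hη0 hEq hmass hn
    have h3 := mul_le_mul_of_nonneg_right h2 (show 0 ≤ n * L by positivity)
    rw [← hγ] at h3
    rw [← hI'] at h1
    clear_value I γ E
    linarith
  have hlyap : I - E - γ * L ≤ ent k := by
    have h1 : Tendsto (fun n : ℕ => (I - E - γ * L) +
        (I - E - γ * L - (Real.log 6 + 2 * L)) / ((n + 1 : ℕ) : ℝ)) atTop
        (𝓝 (I - E - γ * L + 0)) := tendsto_const_nhds.add
      ((tendsto_const_div_atTop_nhds_zero_nat _).comp (tendsto_add_atTop_nat 1))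
    rw [add_zero] at h1
    refine le_of_tendsto_of_tendsto h1 ((tendsto_u k).comp (tendsto_add_atTop_nat 1)) ?_
    filter_upwards [eventually_ge_atTop 1] with n hn
    have hn0 : (0 : ℝ) < ((n + 1 : ℕ) : ℝ) := by positivity
    have hgi : Integrable (g k (n + 1)) mQ := integrable_bdd (measurable_g_z k _) fun z => by
      rw [abs_of_nonneg (g_nonneg k _ z)]
      exact g_bound k _ z
    have h2 := hint (n + 2) (by omega)
    have h3 : ∫ z in GS Sk.c0 η X (n + 2), (∑ i, psi k N (name (T k) (cod N) (n + 2) z i) -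
        (E * ((n + 2 : ℕ) : ℝ) + (Real.log 6 + 2 * L))) ∂mQ ≤
        ∫ z in GS Sk.c0 η X (n + 2), g k (n + 1) z ∂mQ := by
      refine setIntegral_mono_on (integrable_fin
        (measurableSet_name (mp_T k).measurable hcod (n + 2))
        fun w => ∑ i, psi k N (w i) - _).integrableOn hgi.integrableOn (hGm _) fun z hz => ?_
      have h4 := g_ge_of (grow_sharp hk200 hs Sk.longCl (hG k hk1) hN40 hbB (n := n + 2)
        (by omega) z hz z hz.1 rfl fun p q _ _ _ _ => by
          simp only [dy, sub_self, abs_zero, and_self]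
          positivity)
      have h5 : Real.log 2 ≤ Real.log 6 := Real.log_le_log (by norm_num) (by norm_num)
      have h6 : E * ((n + 2 : ℕ) : ℝ) = (l + η * (-Real.log l + 2 * Real.log b)) * ((n + 2 : ℕ) : ℝ)
          + 2 * L * (η * ((n + 2 : ℕ) : ℝ) / Sk.c0) := by rw [hE]; ring
      have h7 : 0 ≤ (l + η * (-Real.log l + 2 * Real.log b)) * ((n + 2 : ℕ) : ℝ) := by positivity
      linarith
    have h4 : ∫ z in GS Sk.c0 η X (n + 2), g k (n + 1) z ∂mQ ≤ u (n + 1) k :=
      setIntegral_le_integral hgi (Eventually.of_forall (g_nonneg k _))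
    simp only [Function.comp]
    rw [le_div_iff₀ hn0, add_mul, div_mul_cancel₀ _ hn0.ne']
    have h5 := h2.trans (h3.trans h4)
    push_cast at h5 ⊢
    clear_value I γ E
    linarith
  refine ⟨le_trans (ENNReal.ofReal_le_ofReal (show _ ≤ I - E - γ * L by linarith))
    (ks_ge_of_linear (measurable_cod N) (C := Real.log 6 + 2 * L + Real.log 2) ?_), by linarith⟩
  filter_upwards [eventually_ge_atTop 3] with n hn
  have h1 := shannon_ge_int (μ := mQ) (measurableSet_name (mp_T k).measurable hcod n) (hGm n)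
    (c := fun w => ∑ i, psi k N (w i) - (E * n + (Real.log 6 + 2 * L))) fun w => ?_
  · linarith [hint n (by omega)]
  · have hηn : 0 ≤ η * n := by positivity
    have h2 := cyl_le' hl0 hl1 (k := k) (N := N) hb1 (n := n) hEq.meas
      (G := name (T k) (cod N) n ⁻¹' {w} ∩ GS Sk.c0 η X n)
      ((measurableSet_name (mp_T k).measurable hcod n w).inter (hGm n)) (fun z hz => hz.2.1)
      (s := ⌊η * n⌋₊) (fun z hz => Nat.le_floor hz.2.2.2.2)
      (ε := Real.exp (-(∑ i, psi k N (w i) - 2 * L * (1 + η * n / Sk.c0)))) (Real.exp_pos _).le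
      (fun z hz z' hz' h1 h2 _ h3 => by
        have h4 := dy_le (by linarith) hN40 hn hz.2.1 hz'.2.1 h1 h2
          (grow_sharp hk200 hs Sk.longCl (hG k hk1) hN40 hbB hn z hz.2 z' hz'.2.1 h2 h3)
        rwa [mem_singleton_iff.1 hz.1] at h4) w
    rw [← inter_assoc, inter_self] at h2
    exact h2.trans (cyl_num hl0 hl1 (by exact_mod_cast hb1) (Nat.floor_le hηn))

end Vale.Agent.N108
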