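import Vale.Agent.N108.Lower

/-!
# P108: Chirikov's formula
-/

open MeasureTheory Filter Set Topology
open scoped ENNReal

namespace Vale.Agent.N108

open Vale.Agent.P108 Vale.Agent.P108.FT Vale.Agent.P108.Tor Vale.Agent.P109.KS Vale.Agent.P108L

lemma norm_A_le' (k : ℝ) (z : ℝ × ℝ) : ‖A k z‖ ≤ |a k z.1| + 6 := by
  refine ContinuousLinearMap.opNorm_le_bound _ (by positivity) fun v => ?_
  have h1 : |v.1| ≤ ‖v‖ := norm_fst_le v
  have h2 : |v.2| ≤ ‖v‖ := norm_snd_le v
  have h3 : |a k z.1 * v.1| ≤ |a k z.1| * ‖v‖ := by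
    rw [abs_mul]
    exact mul_le_mul_of_nonneg_left h1 (abs_nonneg _)
  have e : 2 * Real.pi * k * Real.cos (2 * Real.pi * z.1) * v.1 = a k z.1 * v.1 - 2 * v.1 := by
    unfold a; ring
  rw [A_apply, Prod.norm_def, e, add_mul]
  obtain ⟨h4, h5⟩ := abs_le.1 h1
  obtain ⟨h6, h7⟩ := abs_le.1 h2
  obtain ⟨h8, h9⟩ := abs_le.1 h3
  refine max_le (abs_le.2 ⟨?_, ?_⟩) (abs_le.2 ⟨?_, ?_⟩) <;> simp only <;> linarith

lemma ent_upper (k : ℝ) : ent k ≤ ∫ z, Real.log (|a k z.1| + 6) ∂mQ := by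
  have h := ent_le_u le_rfl k
  rw [Nat.cast_one, div_one] at h
  refine h.trans (integral_mono_of_nonneg (Eventually.of_forall (g_nonneg k 1))
    (integrable_bdd ((continuous_up k).measurable.comp measurable_fst) fun z => up_bdd k _)
    (Eventually.of_forall fun z => ?_))
  refine Real.log_le_log (lt_of_lt_of_le one_pos (one_le_norm_M 1 k z)) ?_
  rw [M_one]
  exact norm_A_le' k z

/-- most points have an almost maximal exponent -/
lemma area_ge {k ε : ℝ} (hε : 0 < ε) (hk : 1 ≤ |k|) (hl : 3 ≤ ε * (ε * Real.log |k|))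
    (h : Real.log (Real.pi * |k|) - 1 ≤ ent k) :
    ENNReal.ofReal (1 - ε) ≤ volume {z | z ∈ Q ∧ (1 - ε) * Real.log |k| ≤ lyap k z} := by
  have hπ := Real.pi_gt_three
  have hm : MeasurableSet {z | (1 - ε) * Real.log |k| ≤ lyap k z} :=
    measurableSet_le measurable_const (measurable_lyap k)
  have e : volume {z | z ∈ Q ∧ (1 - ε) * Real.log |k| ≤ lyap k z} =
      mQ {z | (1 - ε) * Real.log |k| ≤ lyap k z} := by
    rw [mQ, Measure.restrict_apply hm]
    congr 1
    ext z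
    simp [and_comm]
  have hx : 0 < ε * Real.log |k| := by
    by_contra hcon
    nlinarith
  have h1 : Real.log |k| ≤ Real.log (C1 k) :=
    Real.log_le_log (by linarith) (by unfold C1; nlinarith)
  have h2 : Real.log (C1 k) ≤ Real.log (Real.pi * |k|) + 2 := by
    have h3 : Real.log (C1 k) ≤ Real.log (3 * (Real.pi * |k|)) :=
      Real.log_le_log (by linarith [two_le_C1 k]) (by unfold C1; nlinarith)
    rw [Real.log_mul (by norm_num) (by positivity)] at h3
    have := Real.log_le_sub_one_of_pos (show (0 : ℝ) < 3 by norm_num)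
    linarith
  have h4 := mul_meas_ge_le_integral_of_nonneg (μ := mQ)
    (f := fun z => Real.log (C1 k) - lyap k z)
    (Eventually.of_forall fun z => sub_nonneg.2 (lyap_le k z))
    ((integrable_const _).sub (integrable_lyap k)) (ε * Real.log |k|)
  rw [integral_sub (integrable_const _) (integrable_lyap k), integral_const, probReal_univ,
    one_smul, ← ent_eq'] at h4
  have h5 : mQ.real {z | (1 - ε) * Real.log |k| ≤ lyap k z}ᶜ ≤
      mQ.real {z | ε * Real.log |k| ≤ Real.log (C1 k) - lyap k z} := by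
    refine measureReal_mono fun z hz => ?_
    simp only [mem_compl_iff, mem_ofPred_eq, not_le] at hz ⊢
    linarith
  rw [probReal_compl_eq_one_sub hm] at h5
  rw [e, ← ofReal_measureReal]
  apply ENNReal.ofReal_le_ofReal
  have h6 := mul_le_mul_of_nonneg_left h5 hx.le
  by_contra hcon
  push Not at hcon
  nlinarith

theorem chirikov {ε : ℝ} (hε : 0 < ε) : ∃ k₀ : ℝ, ∀ k : ℝ, k₀ ≤ |k| →
    0 < hKS volume (stdMap k) ∧
    ENNReal.ofReal (Real.log (Real.pi * |k|) - ε) ≤ hKS volume (stdMap k) ∧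
    hKS volume (stdMap k) ≤ ENNReal.ofReal (Real.log (Real.pi * |k|) + ε) ∧
    |(∫ z in Q, lyap k z) - Real.log (Real.pi * |k|)| ≤ ε ∧
    ENNReal.ofReal (1 - ε) ≤ volume {z | z ∈ Q ∧ (1 - ε) * Real.log |k| ≤ lyap k z} := by
  have h0 : ∀ᶠ k : ℝ in atTop, 3 ≤ ε * (ε * Real.log k) :=
    ((Real.tendsto_log_atTop.const_mul_atTop hε).const_mul_atTop hε).eventually_ge_atTop 3
  obtain ⟨k₀, h⟩ := eventually_atTop.1 ((ks_lower hε).and ((ks_lower one_pos).and
    ((up_int hε).and (h0.and (eventually_ge_atTop (1 : ℝ))))))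
  refine ⟨k₀, fun k hk => ?_⟩
  obtain ⟨⟨h1, h2⟩, ⟨h3, h4⟩, h5, h6, h7⟩ := h |k| hk
  have e1 : hKS volume (stdMap k) = ksEntropy volume (stdMap |k|) := by
    rw [hKS_eq (mp_stdMap k)]
    rcases le_total 0 k with h | h
    · rw [abs_of_nonneg h]
    · rw [abs_of_nonpos h, ksEntropy_neg]
  have e2 : ent |k| = ent k := by
    rcases le_total 0 k with h | h
    · rw [abs_of_nonneg h]
    · rw [abs_of_nonpos h, ent_neg]
  have h8 := (ent_upper |k|).trans h5
  rw [e2] at h2 h4 h8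
  rw [e1]
  refine ⟨lt_of_lt_of_le ?_ (h3.trans (ksEntropy_torus_ge _)), h1.trans (ksEntropy_torus_ge _),
    (ks_upper (abs_nonneg k)).trans (ENNReal.ofReal_le_ofReal h5),
    abs_le.2 ⟨by unfold ent at h2; linarith, by unfold ent at h8; linarith⟩, area_ge hε h7 h6 h4⟩
  rw [ENNReal.ofReal_pos, sub_pos, Real.lt_log_iff_exp_lt (by have := Real.pi_pos; positivity)]
  nlinarith [Real.exp_one_lt_d9, Real.pi_gt_three]

theorem sinai' : 0 < volume {k : ℝ | 0 < hKS volume (stdMap k)} := by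
  obtain ⟨k₀, h⟩ := chirikov one_pos
  rw [volume_top_of ⟨k₀, fun k hk => (h k hk).1⟩]
  exact ENNReal.zero_lt_top

theorem rate' (k : ℝ) (d : ℕ) (P : Fin d → Set (UnitAddCircle × UnitAddCircle))
    (h : IsPartition P) : ∃ h : ℝ, IsRate volume (stdMap k) P h := rate (mp_stdMap k) h

end Vale.Agent.N108
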