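import Vale.Agent.N108.Ent
import Vale.Agent.N108.Asym
import Vale.Agent.P108.H954.Mean
import Vale.Agent.P108.Tor.Transfer

/-!
# P108: upper bound for the Kolmogorov-Sinai entropy of the standard map
-/

open MeasureTheory Filter Set Topology
open scoped ENNReal

namespace Vale.Agent.N108

open Vale.Agent.P108 Vale.Agent.P108.FT Vale.Agent.P108.Dyn Vale.Agent.P108.H954
open Vale.Agent.P108.Tor Vale.Agent.P109.KS

lemma cod_bounds (N : ℕ) [NeZero N] (z : ℝ × ℝ) :
    ((cod N z : ℕ) : ℝ) ≤ N * Int.fract z.1 ∧ N * Int.fract z.1 < (cod N z : ℕ) + 1 := by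
  have hN : (0 : ℝ) < N := by exact_mod_cast Nat.pos_of_ne_zero (NeZero.ne N)
  have h0 : 0 ≤ (N : ℝ) * Int.fract z.1 := mul_nonneg hN.le (Int.fract_nonneg _)
  have hlt : ⌊(N : ℝ) * Int.fract z.1⌋₊ < N := by
    rw [Nat.floor_lt h0]
    have := Int.fract_lt_one z.1
    nlinarith
  have e : (cod N z : ℕ) = ⌊(N : ℝ) * Int.fract z.1⌋₊ := by
    simp only [cod, Fin.val_ofNat]
    exact Nat.mod_eq_of_lt hlt
  rw [e]
  exact ⟨Nat.floor_le h0, Nat.lt_floor_add_one _⟩

lemma lip_le_one {k : ℝ} (hk : 0 ≤ k) {N : ℝ} (hN0 : 0 < N) (hN : 40 * k ≤ N) {j x : ℝ}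
    (h1 : j ≤ N * x) (h2 : N * x < j + 1) : 4 * Real.pi ^ 2 * k * |j / N - x| ≤ 1 := by
  have hpi := Real.pi_pos
  have hpi2 := Real.pi_lt_d2
  have hpi4 : 4 * Real.pi ^ 2 ≤ 40 := by nlinarith
  have h3 : |j / N - x| ≤ 1 / N := by
    rw [abs_le, ← neg_div, div_sub' hN0.ne', div_le_div_iff_of_pos_right hN0,
      div_le_div_iff_of_pos_right hN0]
    constructor <;> linarith
  calc 4 * Real.pi ^ 2 * k * |j / N - x| ≤ 40 * k * (1 / N) :=
        mul_le_mul (mul_le_mul_of_nonneg_right hpi4 hk) h3 (abs_nonneg _) (by positivity)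
    _ ≤ 1 := by rw [mul_one_div, div_le_one hN0]; exact hN

/-- the value of `a` at the left end of the cell -/
lemma cell_a {k : ℝ} (hk : 0 ≤ k) {N : ℕ} [NeZero N] (hN : 40 * k ≤ N) (z : ℝ × ℝ) :
    |a k (((cod N z : ℕ) : ℝ) / N) - a k z.1| ≤ 1 := by
  have hN0 : (0 : ℝ) < N := by exact_mod_cast Nat.pos_of_ne_zero (NeZero.ne N)
  rw [← a_fract k z.1]
  exact (abs_a_sub_le hk _ _).trans
    (lip_le_one hk hN0 hN (cod_bounds N z).1 (cod_bounds N z).2)

lemma next_cell {k : ℝ} (hk : 0 ≤ k) {N : ℝ} (hN0 : 0 < N) (hN : 40 * k ≤ N) {i j x y : ℝ}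
    (h1 : i ≤ N * x) (h2 : N * x < i + 1) (h3 : j ≤ N * y) (h4 : N * y < j + 1) :
    N * phi k (j / N) - i + min 0 (a k (j / N)) - 2 ≤ N * (phi k y - x) ∧
      N * (phi k y - x) ≤ N * phi k (j / N) - i + max 0 (a k (j / N)) + 1 := by
  have h5 := (sl_near hk (j / N) y).trans (lip_le_one hk hN0 hN h3 h4)
  have h6 := sl_mul k (j / N) y
  have h7 : N * phi k y = N * phi k (j / N) + sl k (j / N) y * (N * y - j) := by
    have : N * (phi k (j / N) - phi k y) = sl k (j / N) y * (j - N * y) := by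
      rw [h6]; field_simp
    linarith
  generalize sl k (j / N) y = σ at *
  generalize a k (j / N) = A at *
  obtain ⟨h8, h9⟩ := abs_le.1 h5
  have hθ0 : 0 ≤ N * y - j := by linarith
  have hθ1 : N * y - j ≤ 1 := by linarith
  rw [mul_sub, h7]
  generalize N * y - j = θ at *
  have h10 := min_le_left 0 A
  have h11 := min_le_right 0 A
  have h12 := le_max_left 0 A
  have h13 := le_max_right 0 A
  constructor <;> nlinarith

lemma floor_fract_mod {N : ℕ} (hN : 0 < N) (t : ℝ) :
    ⌊(N : ℝ) * Int.fract t⌋₊ = (⌊(N : ℝ) * t⌋ % N).toNat := by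
  have hN0 : (0 : ℝ) < N := by exact_mod_cast hN
  have h0 : 0 ≤ (N : ℝ) * Int.fract t := mul_nonneg hN0.le (Int.fract_nonneg _)
  have e : (N : ℝ) * t = N * Int.fract t + ((N * ⌊t⌋ : ℤ) : ℝ) := by
    push_cast
    rw [← mul_add, Int.fract_add_floor]
  have h1 : ⌊(N : ℝ) * Int.fract t⌋ < N := by
    rw [Int.floor_lt]
    have := Int.fract_lt_one t
    push_cast
    nlinarith
  rw [e, Int.floor_add_intCast, Int.add_mul_emod_self_left,
    Int.emod_eq_of_lt (Int.floor_nonneg.2 h0) h1, Int.floor_toNat]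

/-- the possible successors of a pair of cells -/
noncomputable def nxt (k : ℝ) (N : ℕ) [NeZero N] (q : Fin N × Fin N) : Finset (Fin N × Fin N) :=
  (Finset.Icc ⌊N * phi k ((q.2 : ℕ) / N) - (q.1 : ℕ) + min 0 (a k ((q.2 : ℕ) / N)) - 2⌋
    ⌊N * phi k ((q.2 : ℕ) / N) - (q.1 : ℕ) + max 0 (a k ((q.2 : ℕ) / N)) + 1⌋).image
      fun m : ℤ => (q.2, Fin.ofNat N (m % N).toNat)

lemma card_nxt (k : ℝ) (N : ℕ) [NeZero N] (q : Fin N × Fin N) :
    ((nxt k N q).card : ℝ) ≤ |a k ((q.2 : ℕ) / N)| + 5 := by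
  unfold nxt
  refine (Nat.cast_le.2 Finset.card_image_le).trans ?_
  rw [Int.card_Icc]
  generalize (N : ℝ) * phi k ((q.2 : ℕ) / N) - (q.1 : ℕ) = t
  generalize a k ((q.2 : ℕ) / N) = A
  have h1 := Int.floor_le (t + max 0 A + 1)
  have h2 := Int.lt_floor_add_one (t + min 0 A - 2)
  have h3 : max 0 A - min 0 A = |A| := by rw [max_sub_min_eq_abs, sub_zero]
  rcases le_total 0 (⌊t + max 0 A + 1⌋ + 1 - ⌊t + min 0 A - 2⌋) with h | h
  · rw [← Int.cast_natCast, Int.toNat_of_nonneg h]
    push_cast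
    linarith
  · rw [Int.toNat_eq_zero.2 h]
    push_cast
    positivity

lemma sg_mem (p : UnitAddCircle × UnitAddCircle) : sg p ∈ Q := by
  obtain ⟨x, y⟩ := p
  induction x using QuotientAddGroup.induction_on with
  | _ x =>
  induction y using QuotientAddGroup.induction_on with
  | _ y =>
  simp only [sg, sec_mk]
  exact ⟨⟨Int.fract_nonneg _, Int.fract_lt_one _⟩, ⟨Int.fract_nonneg _, Int.fract_lt_one _⟩⟩

lemma nxt_mem {k : ℝ} (hk : 0 ≤ k) {N : ℕ} [NeZero N] (hN : 40 * k ≤ N) {z : ℝ × ℝ}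
    (hz : z ∈ Q) : (cod N (T k z), cod N (T k (T k z))) ∈ nxt k N (cod N z, cod N (T k z)) := by
  have hN1 : 0 < N := Nat.pos_of_ne_zero (NeZero.ne N)
  have hN0 : (0 : ℝ) < N := by exact_mod_cast hN1
  set x := Int.fract z.1 with hx
  set y := Int.fract (T k z).1 with hy
  have h := next_cell hk hN0 hN (cod_bounds N z).1 (cod_bounds N z).2 (cod_bounds N (T k z)).1
    (cod_bounds N (T k z)).2
  have e : Int.fract (T k (T k z)).1 = Int.fract (phi k y - x) := by
    have h0 : x = Int.fract (orb k z 0) := by rw [orb_zero]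
    have h1 : y = Int.fract (orb k z 1) := fst_iterate hz 1
    have h2 : Int.fract (T k (T k z)).1 = Int.fract (orb k z 2) := fst_iterate hz 2
    have h3 := orb_rec k z 1
    have h4 : phi k (orb k z 1) = phi k y + 2 * (⌊orb k z 1⌋ : ℤ) := by
      rw [h1, ← phi_add_int, Int.fract_add_floor]
    rw [h2, Int.fract_eq_fract]
    refine ⟨2 * ⌊orb k z 1⌋ - ⌊orb k z 0⌋, ?_⟩
    have h5 := Int.fract_add_floor (orb k z 0)
    norm_num at h3
    push_cast
    linarith
  unfold nxt
  rw [Finset.mem_image]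
  refine ⟨⌊(N : ℝ) * (phi k y - x)⌋, Finset.mem_Icc.2 ⟨Int.floor_mono h.1, Int.floor_mono h.2⟩, ?_⟩
  refine Prod.ext rfl ?_
  simp only [cod]
  rw [e, floor_fract_mod hN1]

lemma continuous_sinT : Continuous sinT := by
  rw [(QuotientAddGroup.isQuotientMap_mk _).continuous_iff]
  change Continuous fun x : ℝ => Real.sin (2 * Real.pi * x)
  fun_prop

lemma dist_of_cod {N : ℕ} [NeZero N] {p q : UnitAddCircle × UnitAddCircle}
    (h : cod N (sg p) = cod N (sg q)) : dist p.1 q.1 < 1 / N := by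
  have h1 := cod_close h
  have e : ∀ p : UnitAddCircle × UnitAddCircle,
      ((Int.fract (sg p).1 : ℝ) : UnitAddCircle) = p.1 := by
    intro p
    rw [Int.fract_eq_self.2 (sg_mem p).1]
    exact congrArg Prod.fst (pr_sg p)
  rw [← e p, ← e q, dist_eq_norm, ← AddCircle.coe_sub]
  exact lt_of_le_of_lt QuotientAddGroup.norm_mk_le_norm h1

lemma small_cells (k : ℝ) {d : ℝ} (hd : 0 < d) : ∃ ρ : ℝ, 0 < ρ ∧
    ∀ p q : UnitAddCircle × UnitAddCircle, dist p.1 q.1 < ρ →
      dist (stdMap k p).1 (stdMap k q).1 < ρ → dist p q < d := by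
  set S : UnitAddCircle × UnitAddCircle → UnitAddCircle × UnitAddCircle :=
    fun u => (u.1, u.2 - u.1 - ((k * sinT u.1 : ℝ) : UnitAddCircle)) with hS
  have hc : Continuous S := by
    refine continuous_fst.prodMk ((continuous_snd.sub continuous_fst).sub ?_)
    exact (AddCircle.continuous_mk' 1).comp
      (continuous_const.mul (continuous_sinT.comp continuous_fst))
  obtain ⟨ρ, hρ, h⟩ := Metric.uniformContinuous_iff.1
    (CompactSpace.uniformContinuous_of_continuous hc) d hd
  refine ⟨ρ, hρ, fun p q h1 h2 => ?_⟩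
  have e : ∀ p : UnitAddCircle × UnitAddCircle, S (p.1, (stdMap k p).1) = p := by
    intro p
    refine Prod.ext rfl ?_
    simp only [hS, stdMap]
    abel
  rw [← e p, ← e q]
  apply h
  rw [Prod.dist_eq]
  exact max_lt h1 h2

instance : IsProbabilityMeasure (volume : Measure (UnitAddCircle × UnitAddCircle)) := by
  have : IsProbabilityMeasure (volume : Measure UnitAddCircle) := ⟨UnitAddCircle.measure_univ⟩
  exact Measure.prod.instIsProbabilityMeasure _ _

lemma continuous_up (k : ℝ) : Continuous fun x => Real.log (|a k x| + 6) :=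
  Continuous.log ((continuous_a k).abs.add continuous_const) fun x => by positivity

lemma up_bdd (k x : ℝ) : |Real.log (|a k x| + 6)| ≤ Real.log (2 + 2 * Real.pi * |k| + 6) := by
  rw [abs_of_nonneg (Real.log_nonneg (by linarith [abs_nonneg (a k x)]))]
  exact Real.log_le_log (by positivity) (by linarith [abs_a_le k x])

/-- **Upper bound.** -/
theorem ks_upper {k : ℝ} (hk : 0 ≤ k) :
    ksEntropy (volume : Measure (UnitAddCircle × UnitAddCircle)) (stdMap k) ≤
      ENNReal.ofReal (∫ z, Real.log (|a k z.1| + 6) ∂mQ) := by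
  refine ksEntropy_le (mp_stdMap k) (integral_nonneg fun z =>
    Real.log_nonneg (by linarith [abs_nonneg (a k z.1)])) fun d hd => ?_
  obtain ⟨ρ, hρ, hs⟩ := small_cells k hd
  set N : ℕ := ⌈max (40 * k) (1 / ρ)⌉₊ with hNd
  have hN1 : max (40 * k) (1 / ρ) ≤ N := Nat.le_ceil _
  have hN0 : (0 : ℝ) < N := lt_of_lt_of_le (lt_max_of_lt_right (by positivity)) hN1
  have : NeZero N := ⟨by exact_mod_cast hN0.ne'⟩
  have hN : 40 * k ≤ N := (le_max_left _ _).trans hN1
  have hNρ : 1 / (N : ℝ) ≤ ρ := by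
    have := (le_max_right _ _).trans hN1
    rw [div_le_iff₀ hρ] at this
    rw [div_le_iff₀ hN0]
    linarith
  have hc : Measurable fun p : UnitAddCircle × UnitAddCircle => cod N (sg p) :=
    (measurable_cod N).comp mp_sg.measurable
  have hg : ∀ q, MeasurableSet ((fun p : UnitAddCircle × UnitAddCircle =>
      (cod N (sg p), cod N (sg (stdMap k p)))) ⁻¹' {q}) :=
    meas_pair (fun _ => hc (measurableSet_singleton _))
      fun _ => (hc.comp (measurable_stdMap k)) (measurableSet_singleton _)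
  refine ⟨Fin N × Fin N, inferInstance, fun p => (cod N (sg p), cod N (sg (stdMap k p))),
    Real.log (Fintype.card (Fin N × Fin N)), hg, fun p q h => ?_, fun n => ?_⟩
  · obtain ⟨h1, h2⟩ := Prod.ext_iff.1 h
    exact hs p q ((dist_of_cod h1).trans_le hNρ) ((dist_of_cod h2).trans_le hNρ)
  · refine (shannon_name_markov (mp_stdMap k) hg (nxt k N) (fun p => ?_)
      (c := fun q => |a k ((q.2 : ℕ) / N)| + 5) (fun q => by positivity) (card_nxt k N) n).trans ?_
    · simp only [(semiconj_sg k).eq]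
      exact nxt_mem hk hN (sg_mem p)
    · have hmp : MeasurePreserving (fun p => sg (stdMap k p)) volume mQ := mp_sg.comp (mp_stdMap k)
      have hm : Measurable fun z : ℝ × ℝ => Real.log (|a k z.1| + 6) :=
        (continuous_up k).measurable.comp measurable_fst
      have e : ∫ z, Real.log (|a k z.1| + 6) ∂mQ =
          ∫ p, Real.log (|a k (sg (stdMap k p)).1| + 6) := by
        rw [← hmp.map_eq, integral_map hmp.measurable.aemeasurable hm.aestronglyMeasurable]
      rw [e]
      refine add_le_add le_rfl (mul_le_mul_of_nonneg_left ?_ (Nat.cast_nonneg n))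
      refine integral_mono_of_nonneg (Eventually.of_forall fun p => Real.log_nonneg ?_)
        (integrable_bdd (hm.comp hmp.measurable) fun p => up_bdd k _)
        (Eventually.of_forall fun p => Real.log_le_log (by positivity) ?_)
      · linarith [abs_nonneg (a k (((cod N (sg (stdMap k p)) : ℕ) : ℝ) / N))]
      · have h1 := cell_a hk hN (sg (stdMap k p))
        have h2 := abs_sub_abs_le_abs_sub (a k (((cod N (sg (stdMap k p)) : ℕ) : ℝ) / N))
          (a k (sg (stdMap k p)).1)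
        simp only
        linarith

end Vale.Agent.N108
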