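import Vale.Agent.N108.Count
import Vale.Agent.N108.Upper

/-!
# P108: sharp separation of points with the same name
-/

open MeasureTheory Filter Set Topology
open scoped ENNReal

namespace Vale.Agent.N108

open Vale.Agent.P108 Vale.Agent.P108.FT Vale.Agent.P108.Dyn Vale.Agent.P108.H504 P108C
open Vale.Agent.P108.H954
open Vale.Agent.P108.H786 (ao)
open Vale.Agent.P108.Sk (Setting GoodWin LongCl Bset cc Nset NearBound EBound NcBound EquiB Decor)

/-- the expansion rate granted on a cell -/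
noncomputable def psi (k : ℝ) (N : ℕ) (j : Fin N) : ℝ :=
  Real.log (max (|FT.a k (((j : ℕ) : ℝ) / N)| - 3) 1)

/-- growth of continuants when the previous term is dominated outside a set `Y` -/
lemma growth {a : ℤ → ℝ} {B : ℝ} (hB : 1 ≤ B) (hb : ∀ t, |a t| + 1 ≤ B) (Y : Set ℤ) (ψ : ℕ → ℝ)
    (m : ℕ) (hψ : ∀ i : ℕ, i < m → Real.exp (ψ (i + 1)) ≤ max (|a (i + 1)| - 1) 1)
    (hY : ∀ i : ℕ, i < m → (i : ℤ) + 1 ∉ Y → |H462.D a 1 i| ≤ |H462.D a 1 (i + 1)|) :
    Real.exp (∑ i ∈ Finset.range m, ψ (i + 1)) ≤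
      max |H462.D a 1 (m + 1)| |H462.D a 1 m| * (B ^ 2) ^ ms Y 1 (m + 1) := by
  classical
  induction m with
  | zero =>
    simp only [Finset.range_zero, Finset.sum_empty, Real.exp_zero, Nat.cast_zero, zero_add,
      H462.D_self, abs_one]
    exact one_le_mul_of_one_le_of_one_le (le_max_left _ _) (one_le_pow₀ (one_le_pow₀ hB))
  | succ m ih =>
    have h1 := ih (fun i hi => hψ i (by omega)) fun i hi => hY i (by omega)
    have h2 := hψ m (by omega)
    have h3 := H462.D_succ (a := a) (i := 1) (j := (m : ℤ) + 1) (by omega)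
    rw [add_sub_cancel_right] at h3
    rw [Finset.sum_range_succ, Real.exp_add]
    push_cast
    rw [H462.ms_succ (by omega)]
    have h4 := hb ((m : ℤ) + 1)
    have hy := hY m (by omega)
    generalize H462.D a 1 ((m : ℤ) + 1 + 1) = u at *
    generalize H462.D a 1 ((m : ℤ) + 1) = v at *
    generalize H462.D a 1 (m : ℤ) = w at *
    generalize a ((m : ℤ) + 1) = α at *
    have hP : 0 ≤ (B ^ 2) ^ ms Y 1 ((m : ℤ) + 1) := by positivity
    have hα := abs_nonneg α
    have hv := abs_nonneg v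
    have h5 := le_max_left |u| |v|
    have h6 := le_max_right |u| |v|
    refine (mul_le_mul h1 h2 (Real.exp_pos _).le (by positivity)).trans ?_
    split_ifs with h
    · have h7 : |w| ≤ |α| * |v| + |u| := by
        rw [show w = α * v - u by linarith, ← abs_mul]
        exact abs_sub _ _
      have h8 : max |v| |w| ≤ B * max |u| |v| := max_le (by nlinarith) (by nlinarith)
      have h9 : max (|α| - 1) 1 ≤ B := max_le (by linarith) hB
      calc max |v| |w| * (B ^ 2) ^ ms Y 1 ((m : ℤ) + 1) * max (|α| - 1) 1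
          ≤ (B * max |u| |v|) * (B ^ 2) ^ ms Y 1 ((m : ℤ) + 1) * B := by gcongr
        _ = _ := by rw [pow_succ]; ring
    · have h7 := hy h
      have h8 : |α| * |v| - |w| ≤ |u| := by
        rw [h3, ← abs_mul]
        exact abs_sub_abs_le_abs_sub _ _
      have h9 : |v| * max (|α| - 1) 1 ≤ max |u| |v| := by
        rw [mul_max_of_nonneg _ _ hv]
        exact max_le (by nlinarith) (by linarith)
      rw [max_eq_left h7, add_zero, mul_right_comm]
      exact mul_le_mul_of_nonneg_right h9 hP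

theorem grow_sharp {k s : ℝ} {Λ W N b : ℕ} [NeZero N] (hk : 2 ^ 200 ≤ k) (hs : s ∈ Icc (0 : ℝ) 1)
    (hL : LongCl)
    (hR : ∀ (s : ℝ) (a a' : ℤ → ℝ) (u w : ℤ) (X : Set ℤ), Setting k s a u w X →
      (∀ t, u ≤ t → t < w → |a' t| + 1 ≤ 9 * k) →
      (∀ t, u ≤ t → t < w → |a' t - a t| ≤ 1) →
      (∀ p q i j : ℤ, u ≤ i → i < p → p < q → q < j → j ≤ w → H462.Run X p q → p - 1 ∉ X →
        j - i ≤ W * (q - p) → ∀ t, i ≤ t → t < j →
          |a' t - a t| * (9 * k) ^ (4 * W * (q - p).toNat) ≤ 1) →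
      GoodWin X u (w - 1) → H462.Hyp a' X (9 * k) Λ Sk.c0 u w)
    (hN : 40 * k ≤ N) (hb : (9 * k) ^ (5 * W + 3) ≤ b) {η : ℝ} {n : ℕ} (hn : 3 ≤ n) :
    ∀ z ∈ GS Sk.c0 η (fun z => ClInf cc (Bset k s (ao k z))) n, ∀ w ∈ Q,
    P109.KS.name (T k) (cod N) n z = P109.KS.name (T k) (cod N) n w →
    (∀ p q : ℕ, p < q → q ≤ n →
      (∀ i : ℕ, p ≤ i → i < q → (i : ℤ) ∈ ClInf cc (Bset k s (ao k z))) →
      ((p : ℤ) - 1 ∉ ClInf cc (Bset k s (ao k z)) ∨ p = 0) →
      |dy k z w p| < ((b : ℝ) ^ (q - p))⁻¹ ∧ |dy k z w (p + 1)| < ((b : ℝ) ^ (q - p))⁻¹) →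
    Real.exp (∑ i : Fin n, psi k N (P109.KS.name (T k) (cod N) n z i) -
      2 * Real.log (9 * k) * (1 + η * n / Sk.c0)) ≤
      max |H462.D (am k z w) 1 ((n : ℤ) - 1)| |H462.D (am k z w) 1 ((n : ℤ) - 2)| := by
  intro z hz w hw hname hrun
  obtain ⟨hzQ, hz1, hz2, hz3⟩ := hz
  simp only at hz1 hz2 hz3
  have hk0 : (0 : ℝ) < k := lt_of_lt_of_le (by positivity) hk
  have hk2 : (2 : ℝ) ≤ k := le_trans (by norm_num) hk
  have hpi := Real.pi_pos
  have hpi2 := Real.pi_lt_d2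
  set X : Set ℤ := ClInf cc (Bset k s (ao k z)) with hX
  set a := ao k z with ha
  set a' := am k z w with ha'
  set B : ℝ := 9 * k with hB
  have hB1 : (1 : ℝ) ≤ B := by rw [hB]; linarith
  have hB0 : (0 : ℝ) < B := by linarith
  have hN0 : (0 : ℝ) < N := by linarith
  -- small differences
  have hdy : ∀ i : ℤ, 0 ≤ i → i < n → |dy k z w i| < 1 / N := fun i h0 hi =>
    dy_lt_of_name hzQ hw hname h0 hi
  have hδ : (4 + 2 * Real.pi * k) * (1 / (N : ℝ)) ≤ 1 := by
    rw [mul_one_div, div_le_one hN0]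
    nlinarith
  have hsol : IsSol a' 1 (n - 2) (dy k z w) := isSol_dy hk0.le hδ hdy
  have hb' : ∀ t, |a' t| + 1 ≤ B := by
    intro t
    have h1 := abs_sl_le hk0.le (Int.fract (orb k z t)) (Int.fract (orb k w t))
    have h2 : |a' t| ≤ 2 + 2 * Real.pi * k := h1
    rw [hB]
    nlinarith
  have hnear : ∀ t, |a' t - a t| ≤ 4 * Real.pi ^ 2 * k * |dy k z w t| := fun t =>
    am_near hk0.le z w t
  have hpi4 : 4 * Real.pi ^ 2 ≤ 40 := by nlinarith
  have hclose : ∀ t : ℤ, 0 ≤ t → t < n → |a' t - a t| ≤ 1 := by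
    intro t h0 h1
    calc |a' t - a t| ≤ 4 * Real.pi ^ 2 * k * |dy k z w t| := hnear t
      _ ≤ 40 * k * (1 / N) := by
          apply mul_le_mul _ (hdy t h0 h1).le (abs_nonneg _) (by positivity)
          exact mul_le_mul_of_nonneg_right hpi4 hk0.le
      _ ≤ 1 := by rw [mul_one_div, div_le_one hN0]; exact hN
  -- near the runs
  set X' : Set ℤ := X ∩ Ico 1 ((n : ℤ) - 1) with hX'
  have hset : Setting k s a 1 ((n : ℤ) - 1) X' := Sk.setting_ClInf hL hk2 hs z 1 _
  have hruns : ∀ p q i j : ℤ, 1 ≤ i → i < p → p < q → q < j → j ≤ (n : ℤ) - 1 →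
      H462.Run X' p q → p - 1 ∉ X' → j - i ≤ W * (q - p) → ∀ t, i ≤ t → t < j →
        |a' t - a t| * B ^ (4 * W * (q - p).toNat) ≤ 1 := by
    intro p q i j h1 h2 h3 h4 h5 hrn hp1 hw t ht1 ht2
    have hpX : p - 1 ∉ X := fun h => hp1 ⟨h, by constructor <;> omega⟩
    set ℓ := (q - p).toNat with hℓ
    have h6 := hrun p.toNat q.toNat (by omega) (by omega)
      (fun i hi1 hi2 => (hrn i (by omega) (by omega)).1)
      (Or.inl (by
        have : ((p.toNat : ℤ)) = p := by omega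
        rw [this]; exact hpX))
    have e1 : ((p.toNat : ℤ)) = p := by omega
    have e2 : q.toNat - p.toNat = ℓ := by omega
    rw [e1, e2] at h6
    set ε : ℝ := ((b : ℝ) ^ ℓ)⁻¹ with hε
    have hbpos : (0 : ℝ) < b := lt_of_lt_of_le (by positivity) hb
    have hε0 : 0 < ε := by positivity
    have hwℓ : (W * (q - p) : ℤ) = ((W * ℓ : ℕ) : ℤ) := by
      push_cast
      rw [hℓ, Int.toNat_of_nonneg (by omega)]
    have h7 : |dy k z w t| ≤ B ^ (W * ℓ + 1) * ε := by
      refine prop_bound hB1 hε0.le hsol (fun t _ _ => hb' t) (p := p) (by omega) (by omega)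
        h6.1.le h6.2.le (by omega) (by omega) ?_ ?_
      · push_cast at hwℓ ⊢
        omega
      · push_cast at hwℓ ⊢
        omega
    have h8 : 4 * Real.pi ^ 2 * k ≤ B ^ 2 := by
      rw [hB]
      nlinarith
    have h9 : |a' t - a t| ≤ B ^ (W * ℓ + 3) * ε := by
      calc |a' t - a t| ≤ 4 * Real.pi ^ 2 * k * |dy k z w t| := hnear t
        _ ≤ B ^ 2 * (B ^ (W * ℓ + 1) * ε) := mul_le_mul h8 h7 (abs_nonneg _) (by positivity)
        _ = B ^ (W * ℓ + 3) * ε := by rw [pow_add B (W * ℓ) 3, pow_add B (W * ℓ) 1]; ring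
    have hℓ1 : 1 ≤ ℓ := by omega
    have h10 : B ^ (W * ℓ + 3) * B ^ (4 * W * ℓ) ≤ (b : ℝ) ^ ℓ := by
      rw [← pow_add]
      calc B ^ (W * ℓ + 3 + 4 * W * ℓ) ≤ B ^ ((5 * W + 3) * ℓ) := by
            apply pow_le_pow_right₀ hB1
            nlinarith
        _ = (B ^ (5 * W + 3)) ^ ℓ := by rw [pow_mul]
        _ ≤ (b : ℝ) ^ ℓ := pow_le_pow_left₀ (by positivity) hb ℓ
    calc |a' t - a t| * B ^ (4 * W * ℓ) ≤ (B ^ (W * ℓ + 3) * ε) * B ^ (4 * W * ℓ) :=
          mul_le_mul_of_nonneg_right h9 (by positivity)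
      _ = (B ^ (W * ℓ + 3) * B ^ (4 * W * ℓ)) * ε := by ring
      _ ≤ (b : ℝ) ^ ℓ * ε := mul_le_mul_of_nonneg_right h10 hε0.le
      _ = 1 := mul_inv_cancel₀ (by positivity)
  have hgood : GoodWin X' 1 ((n : ℤ) - 1 - 1) := by
    intro y hy1 hy2
    have hyn : y ≤ n := by omega
    constructor
    · have h1 : ms X' 1 (1 + y) ≤ ms X 1 (1 + y) := ms_mono inter_subset_left _ _
      by_contra hcon
      push Not at hcon
      apply hz1
      refine ⟨y, hy1, hyn, hcon.trans ?_⟩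
      rw [zero_add]
      exact_mod_cast h1
    · have e : (n : ℤ) - 1 - 1 + 1 = n - 1 := by ring
      rw [e]
      have h1 : ms X' ((n : ℤ) - 1 - y) (n - 1) ≤ ms X ((n : ℤ) - 1 - y) (n - 1) :=
        ms_mono inter_subset_left _ _
      by_contra hcon
      push Not at hcon
      apply hz2
      refine ⟨y, hy1, hyn, hcon.trans ?_⟩
      exact_mod_cast h1
  have hHyp := hR s a a' 1 ((n : ℤ) - 1) X' hset (fun t _ _ => hb' t)
    (fun t h1 h2 => hclose t (by omega) (by omega)) hruns hgood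
  -- growth
  have hg1 : (4 : ℝ) ≤ k ^ (1 / 100 : ℝ) := by
    have h6 : ((2 : ℝ) ^ (200 : ℝ)) ^ (1 / 100 : ℝ) = 4 := by
      rw [← Real.rpow_mul (by norm_num)]
      norm_num
    rw [← h6]
    apply Real.rpow_le_rpow (by positivity) _ (by norm_num)
    have : (2 : ℝ) ^ (200 : ℝ) = 2 ^ (200 : ℕ) := by
      rw [← Real.rpow_natCast]; norm_num
    rw [this]; exact hk
  set g := gk k with hg
  have hgk : g = k ^ (1 / 100 : ℝ) / 4 := rfl
  have hg0 : 1 ≤ g := by rw [hgk]; linarith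
  have hgpos : 0 < g := by linarith
  have hclean : ∀ t, 1 ≤ t → t < (n : ℤ) - 1 → t ∉ X' → 2 * g ≤ |a' t| := by
    intro t h1 h2 h3
    have h4 : t ∉ Bset k s a := fun h => h3 ⟨subset_ClInf cc _ h, by constructor <;> omega⟩
    have h5 := clean_of_notMem hk0 hs.1 h4
    have h6 := hclose t (by omega) (by omega)
    have h7 : |a t| - |a' t| ≤ |a t - a' t| := abs_sub_abs_le_abs_sub _ _
    rw [abs_sub_comm] at h7
    rw [hgk]
    linarith
  obtain ⟨m, rfl⟩ : ∃ m, n = m + 2 := ⟨n - 2, by omega⟩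
  set ψ : ℕ → ℝ := fun i => psi k N (cod N ((T k)^[i] z)) with hψ
  have hc0 : (0 : ℝ) < Sk.c0 := by norm_num
  have hψ1 : ∀ i : ℕ, i < m + 2 → Real.exp (ψ i) ≤ max (|a' i| - 1) 1 := by
    intro i hi
    simp only [hψ, psi]
    rw [Real.exp_log (lt_max_of_lt_right one_pos)]
    refine max_le_max ?_ le_rfl
    have h1 := cell_a hk0.le hN ((T k)^[i] z)
    have h2 : FT.a k ((T k)^[i] z).1 = a i := by
      rw [← a_fract, fst_iterate hzQ, a_fract]; rfl
    rw [h2] at h1
    have h3 := hclose i (by omega) (by exact_mod_cast hi)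
    have h4 := abs_sub_abs_le_abs_sub (FT.a k (((cod N ((T k)^[i] z) : ℕ) : ℝ) / N)) (a i)
    have h5 := abs_sub_abs_le_abs_sub (a i) (a' i)
    rw [abs_sub_comm] at h5
    linarith
  have hψB : ∀ i : ℕ, i < m + 2 → ψ i ≤ Real.log B := by
    intro i hi
    rw [Real.le_log_iff_exp_le hB0]
    exact (hψ1 i hi).trans (max_le (by linarith [hb' i]) hB1)
  have hgr := growth hB1 hb' (P108C.dl Sk.c0 (m + 2) X') ψ m
    (fun i hi => by
      have := hψ1 (i + 1) (by omega)
      push_cast at this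
      exact this)
    (fun i hi hY => by
      rcases Nat.eq_zero_or_pos i with h0 | h0
      · subst h0
        have e0 := H462.D_pred (a := a') 1
        norm_num at e0 ⊢
        rw [e0, abs_zero]
        exact abs_nonneg _
      · have hLG : H462.LG Sk.c0 X' 1 ((i : ℤ) + 1) := by
          intro r h1 h2
          by_contra hcon
          push Not at hcon
          apply hY
          have e1 : (((i : ℤ) + 1 - r).toNat : ℤ) = i + 1 - r := by omega
          refine ⟨((i : ℤ) + 1 - r).toNat, by omega, by omega, ?_⟩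
          rw [e1, sub_sub_cancel, ← Int.cast_natCast, e1]
          exact hcon.le
        have hC := (hHyp.2 1 ((i : ℤ) + 1) le_rfl (by omega) (by push_cast; omega)
          ⟨hHyp.1.1.mono_right (by push_cast; omega), hLG⟩).2.1
        have h3 := hclean ((i : ℤ) + 1 - 1) (by omega) (by push_cast; omega)
          (hLG.notMem (by omega) (by norm_num))
        rw [add_sub_cancel_right] at hC h3
        have h4 := H462.rho_le ((i : ℤ) + 1 - 1).toNat
        rw [add_sub_cancel_right] at h4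
        have h5 := abs_nonneg (H462.D a' 1 i)
        have h6 := abs_nonneg (H462.D a' 1 (i + 1))
        nlinarith)
  set y := ms (P108C.dl Sk.c0 (m + 2) X') 1 (m + 1) with hy
  have hyη : (y : ℝ) ≤ η * ((m + 2 : ℕ) : ℝ) / Sk.c0 := by
    have h1 := count_dl hc0 (m + 2) X' 0 m
    rw [zero_add, zero_add, add_comm (1 : ℤ) m, ← hy] at h1
    have h2 : ms X' (0 - ((m + 2 : ℕ) : ℤ)) m ≤ ms X 0 ((m + 2 : ℕ) : ℤ) := by
      unfold ms
      apply Finset.card_le_card
      intro t ht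
      simp only [Finset.mem_filter, Finset.mem_Ico] at ht ⊢
      obtain ⟨h3, h4, h5, h6⟩ := ht
      exact ⟨⟨by omega, by omega⟩, h4⟩
    have h3 : (ms X' (0 - ((m + 2 : ℕ) : ℤ)) m : ℝ) ≤ ms X 0 ((m + 2 : ℕ) : ℤ) := by
      exact_mod_cast h2
    rw [le_div_iff₀ hc0]
    linarith
  have hlogB : 0 ≤ Real.log B := Real.log_nonneg hB1
  have hsum : ∑ i : Fin (m + 2), psi k N (P109.KS.name (T k) (cod N) (m + 2) z i) ≤
      ∑ i ∈ Finset.range m, ψ (i + 1) + 2 * Real.log B := by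
    have e : ∑ i : Fin (m + 2), psi k N (P109.KS.name (T k) (cod N) (m + 2) z i) =
        ∑ i ∈ Finset.range (m + 2), ψ i := Fin.sum_univ_eq_sum_range ψ (m + 2)
    rw [e, Finset.sum_range_succ, Finset.sum_range_succ']
    linarith [hψB 0 (by omega), hψB (m + 1) (by omega)]
  have h1 : (B ^ 2) ^ y = Real.exp (2 * Real.log B * y) := by
    rw [← Real.exp_log (show 0 < (B ^ 2) ^ y by positivity), Real.log_pow, Real.log_pow]
    congr 1
    push_cast
    ring
  rw [h1, ← div_le_iff₀ (Real.exp_pos _), ← Real.exp_sub] at hgr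
  rw [show ((m + 2 : ℕ) : ℤ) - 1 = m + 1 by push_cast; ring,
    show ((m + 2 : ℕ) : ℤ) - 2 = m by push_cast; ring]
  refine le_trans (Real.exp_le_exp.2 ?_) hgr
  have h2 := mul_le_mul_of_nonneg_left hyη (show 0 ≤ 2 * Real.log B by positivity)
  linarith

/-- points of a vertical line with the same name -/
lemma dy_le {k E : ℝ} {N n : ℕ} [NeZero N] (hk : 1 ≤ k) (hN : 40 * k ≤ N) (hn : 3 ≤ n)
    {z w : ℝ × ℝ} (hz : z ∈ Q) (hw : w ∈ Q) (hzw : z.1 = w.1)
    (hname : P109.KS.name (T k) (cod N) n z = P109.KS.name (T k) (cod N) n w)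
    (h : Real.exp E ≤
      max |H462.D (am k z w) 1 ((n : ℤ) - 1)| |H462.D (am k z w) 1 ((n : ℤ) - 2)|) :
    |dy k z w 1| ≤ Real.exp (-E) := by
  have hN0 : (0 : ℝ) < N := by linarith
  have hdy : ∀ i : ℤ, 0 ≤ i → i < n → |dy k z w i| < 1 / N := fun i h0 hi =>
    dy_lt_of_name hz hw hname h0 hi
  have hδ : (4 + 2 * Real.pi * k) * (1 / (N : ℝ)) ≤ 1 := by
    rw [mul_one_div, div_le_one hN0]
    nlinarith [Real.pi_lt_d2]
  have hN1 : 1 / (N : ℝ) ≤ 1 := by
    rw [div_le_one hN0]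
    linarith
  have hD : ∀ j : ℤ, 1 ≤ j → j ≤ n - 1 → |dy k z w 1| * |H462.D (am k z w) 1 j| ≤ 1 := by
    intro j h1 h2
    have h3 := dy_eq (by linarith) hδ hdy hzw (j := j) h1 h2
    have h4 := hdy j (by omega) (by omega)
    rw [h3, ← D462_eq, abs_mul] at h4
    exact h4.le.trans hN1
  rw [Real.exp_neg, ← one_div, le_div_iff₀ (Real.exp_pos _)]
  refine (mul_le_mul_of_nonneg_left h (abs_nonneg _)).trans ?_
  rw [mul_max_of_nonneg _ _ (abs_nonneg _)]
  exact max_le (hD _ (by omega) le_rfl) (hD _ (by omega) (by omega))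

lemma M_vert (k : ℝ) (z : ℝ × ℝ) (n : ℕ) : M (n + 1) k z (0, 1) =
    (H462.D (am k z z) 1 (n + 1), H462.D (am k z z) 1 (n + 1) - H462.D (am k z z) 1 n) := by
  induction n with
  | zero =>
    have e0 := H462.D_pred (a := am k z z) 1
    norm_num at e0
    simp [M_one, A_apply, H462.D_self, e0]
  | succ n ih =>
    have h1 := H462.D_succ (a := am k z z) (i := 1) (j := (n : ℤ) + 1) (by omega)
    have h2 : am k z z ((n : ℤ) + 1) = FT.a k ((F k)^[n + 1] z).1 := by
      unfold am sl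
      rw [if_pos rfl, a_fract, ← orb_natCast]
      rfl
    rw [M_add, M_one, ContinuousLinearMap.comp_apply, ih, A_apply]
    push_cast
    rw [h1, h2, add_sub_cancel_right]
    unfold FT.a
    refine Prod.ext ?_ ?_ <;> simp only <;> ring

/-- the cocycle dominates the continuants -/
lemma g_ge_of {k E : ℝ} {n : ℕ} {z : ℝ × ℝ} (h : Real.exp E ≤
      max |H462.D (am k z z) 1 (((n + 2 : ℕ) : ℤ) - 1)|
        |H462.D (am k z z) 1 (((n + 2 : ℕ) : ℤ) - 2)|) : E - Real.log 2 ≤ g k (n + 1) z := by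
  rw [show ((n + 2 : ℕ) : ℤ) - 1 = n + 1 by push_cast; ring,
    show ((n + 2 : ℕ) : ℤ) - 2 = n by push_cast; ring] at h
  have h3 := (M (n + 1) k z).le_opNorm (0, 1)
  have h4 : ‖((0 : ℝ), (1 : ℝ))‖ = 1 := by simp [Prod.norm_def]
  rw [h4, mul_one, M_vert, Prod.norm_def, max_le_iff, Real.norm_eq_abs, Real.norm_eq_abs] at h3
  have h5 := abs_sub_abs_le_abs_sub (H462.D (am k z z) 1 n) (H462.D (am k z z) 1 (n + 1))
  rw [abs_sub_comm] at h5
  have h6 := one_le_norm_M (n + 1) k z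
  have h7 : Real.exp E ≤ 2 * ‖M (n + 1) k z‖ :=
    h.trans (max_le (by linarith [h3.1]) (by linarith [h3.1, h3.2]))
  rw [← Real.le_log_iff_exp_le (by positivity), Real.log_mul (by norm_num) (by positivity)] at h7
  unfold g
  linarith

end Vale.Agent.N108
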